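import Vale.Agent.P155.H12.Main
import Vale.Agent.P155.G1.Decay

/-!
# P155, block H: the layer lemma for `k ≥ 1`, and `H_final`
-/

namespace Vale.Agent.P155.H12

open Finset Vale.Agent.P155 Vale.Agent.P155.Skel Vale.Agent.P155.G45 Vale.Agent.P155.J

/-- the potential is small near the boundary -/
theorem small_near (hdec : G_decay) : ∃ β > (0 : ℝ), ∃ CG : ℝ, 0 ≤ CG ∧ ∀ (R : ℕ) (T : Temp)
    (Φ v : Pt → ℝ) (Cp : ℝ) (ρ : ℕ), 1 ≤ R → Fits T R → CP T.faceSet → 0 < Cp →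
    (∀ y, |Φ y| ≤ Cp / (R : ℝ) ^ 2) → IsGreen T.faceSet Φ v →
    ∀ x, dF T.faceSet x ≤ ρ → v x ≤ Cp * (CG * ((ρ : ℝ) / R) ^ β) := by
  obtain ⟨β, hβ, CG, hG⟩ := hdec
  refine ⟨β, hβ, max CG 0, le_max_right _ _, ?_⟩
  intro R T Φ v Cp ρ hR hfit hCP hCp hΦ hv x hx
  have hR1 : (1 : ℝ) ≤ R := by exact_mod_cast hR
  have h1 := hG R T.faceSet (fun y => Cp⁻¹ * Φ y) (fun y => Cp⁻¹ * v y) hR hfit hCP
    { off := fun y hy => by rw [hv.off y hy, mul_zero]
      eq := fun y hy => by rw [lap_smul, ← hv.eq y hy]; ring }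
    (fun y => by
      rw [abs_mul, abs_of_pos (inv_pos.2 hCp)]
      calc Cp⁻¹ * |Φ y| ≤ Cp⁻¹ * (Cp / (R : ℝ) ^ 2) :=
            mul_le_mul_of_nonneg_left (hΦ y) (inv_pos.2 hCp).le
        _ = 1 / (R : ℝ) ^ 2 := by field_simp) x
  rw [abs_mul, abs_of_pos (inv_pos.2 hCp)] at h1
  have h2 : |v x| ≤ Cp * (CG * ((dF T.faceSet x : ℝ) / R) ^ β) := by
    calc |v x| = Cp * (Cp⁻¹ * |v x|) := by field_simp
      _ ≤ _ := mul_le_mul_of_nonneg_left h1 hCp.le
  refine (le_abs_self _).trans (h2.trans ?_)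
  apply mul_le_mul_of_nonneg_left _ hCp.le
  have h3 : ((dF T.faceSet x : ℝ) / R) ^ β ≤ ((ρ : ℝ) / R) ^ β := by
    apply Real.rpow_le_rpow (by positivity) _ hβ.le
    gcongr
  calc CG * ((dF T.faceSet x : ℝ) / R) ^ β ≤ max CG 0 * ((dF T.faceSet x : ℝ) / R) ^ β :=
        mul_le_mul_of_nonneg_right (le_max_left _ _) (by positivity)
    _ ≤ _ := mul_le_mul_of_nonneg_left h3 (le_max_right _ _)

/-- **BLOCK H**: the layer lemma for `k ≥ 1`. -/
theorem h_pos (hdec : G_decay) (hheight : C_height) (hF : F_pair) (hI : I_min) :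
    ∃ a0 > (0 : ℝ), ∀ a : ℝ, 0 < a → a ≤ a0 → ∀ (k : ℕ) (C0 : ℝ), 1 ≤ k →
      ∃ c > (0 : ℝ), ∃ C : ℝ, ∀ (R : ℕ) (T : Temp) (φ : Pt → ℝ), HConcl a k C0 c C R T φ := by
  classical
  obtain ⟨β, hβ, hSD, hOut⟩ := G1.decay
  obtain ⟨γ, hγ, hγ1, hmass⟩ := mass_bounds hβ (by norm_num) hSD hOut
  obtain ⟨β', hβ', CG, hCG, hsmall⟩ := small_near hdec
  obtain ⟨CF0, hCF0⟩ := hF
  set CF := max CF0 1 with hCFdef
  have hCF1 : 1 ≤ CF := le_max_right _ _
  set e := γ / 8 with he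
  have he0 : 0 < e := by positivity
  have he8 : e ≤ 1 / 8 := by rw [he]; linarith
  refine ⟨min (1 / 8) (γ / (2 * (2 * γ + CF))), by positivity, ?_⟩
  intro a ha0 ha k C0 hk
  have ha8 : a ≤ 1 / 8 := ha.trans (min_le_left _ _)
  have haγ : a * (2 * γ + CF) ≤ γ / 2 := by
    have h1 := ha.trans (min_le_right _ _)
    rw [le_div_iff₀ (by positivity)] at h1
    linarith
  obtain ⟨M, hM0, hM⟩ := hmass C0
  obtain ⟨K0, hK0, hnb⟩ := near_bound hβ (by norm_num) hSD C0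
  set Cp := max C0 1 with hCp
  have hCp1 : 1 ≤ Cp := le_max_right _ _
  set η := e * β' with hη
  have hη0 : 0 < η := by positivity
  set CI := max Cp (Cp * CG) with hCI
  obtain ⟨cI, hcI, hI'⟩ := hI η hη0
  obtain ⟨VI, hVI⟩ := hI' CI
  set VI' := max VI 0 with hVI'
  set c := min (min (e * γ / 2) (cI / 2)) (1 / 2) with hc
  have hc0 : 0 < c := by positivity
  have hc1 : c ≤ e * γ / 2 := (min_le_left _ _).trans (min_le_left _ _)
  have hc2 : c ≤ cI / 2 := (min_le_left _ _).trans (min_le_right _ _)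
  have hc3 : c ≤ 1 / 2 := min_le_right _ _
  have hc4 : c ≤ γ / 16 := by
    have : e * γ ≤ γ / 8 := by
      rw [he]
      nlinarith
    linarith
  obtain ⟨Cτ, hCτ, htau⟩ := tau_small HT.l_cosh hheight hc0 1
  obtain ⟨R0, hR01, hscale⟩ := scales he0 he8 ha8 (by linarith : (0 : ℝ) ≤ Cp)
    (by linarith : (0 : ℝ) ≤ CF)
  set Q := 4 * Cτ * M ^ 2 + 164 * M ^ 2 with hQ
  have hQ0 : 0 ≤ Q := by positivity
  set Cf := 2 * (K0 ^ 2 * VI' + Cτ * M ^ 2) + 2 * (M * M + 324 * M ^ 2 * CF * 5 ^ CF +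
    Cτ * M ^ 2) with hCf
  have hCf0 : 0 ≤ Cf := by positivity
  refine ⟨c, hc0, Cf + Q * (R0 : ℝ) ^ 5 * (R0 : ℝ) ^ c, ?_⟩
  intro R T φ hR hfit hbump hsuppφ u χ hu hχ
  have hR1 : (1 : ℝ) ≤ R := by exact_mod_cast hR
  have hRpos : (0 : ℝ) < R := by linarith
  have hφ := bump_le hbump
  set s := ⌈(R : ℝ) ^ a⌉₊ with hs
  have hRa1 : 1 ≤ (R : ℝ) ^ a := Real.one_le_rpow hR1 ha0.le
  have hs1 : 1 ≤ s := Nat.one_le_ceil_iff.2 (by linarith)
  have hsR : s ≤ R := by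
    rw [hs]
    apply Nat.ceil_le.2
    calc (R : ℝ) ^ a ≤ (R : ℝ) ^ (1 : ℝ) := Real.rpow_le_rpow_of_exponent_le hR1 (by linarith)
      _ = R := Real.rpow_one _
  have hτ := htau R T hR hfit
  have hτ' : Ex T.V (tauN (box (0, 0) R) ((R : ℝ) ^ c)) ≤ Cτ := by
    refine hτ.trans ?_
    calc Cτ * (R : ℝ) ^ (-1 : ℝ) ≤ Cτ * 1 := by
          apply mul_le_mul_of_nonneg_left _ hCτ
          exact Real.rpow_le_one_of_one_le_of_nonpos hR1 (by norm_num)
      _ = Cτ := mul_one _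
  have hRc : 1 ≤ (R : ℝ) ^ c := Real.one_le_rpow hR1 hc0.le
  have hKR : (R : ℝ) ^ c ≤ R := by
    calc (R : ℝ) ^ c ≤ (R : ℝ) ^ (1 : ℝ) := Real.rpow_le_rpow_of_exponent_le hR1 (by linarith)
      _ = R := Real.rpow_one _
  rcases Nat.lt_or_ge R R0 with hlt | hge
  · -- small scales
    have h1 := crude hfit hR hk hγ hM0
      (fun O s χ φ u h1 h2 h3 h4 h5 h6 => hM R O s χ φ u hR h1 h2 h3 h4 h5 h6) φ hφ u χ hs1 hsR
      hu hχ (by positivity : (0 : ℝ) ≤ (R : ℝ) ^ c) hKR hτ'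
    refine h1.trans ?_
    have hRR0 : (R : ℝ) ≤ R0 := by exact_mod_cast hlt.le
    have h2 : (1 : ℝ) ≤ (R0 : ℝ) ^ c * (R : ℝ) ^ (-c) := by
      rw [Real.rpow_neg hRpos.le, ← div_eq_mul_inv, one_le_div (by positivity)]
      exact Real.rpow_le_rpow hRpos.le hRR0 hc0.le
    calc Q * (R : ℝ) ^ 5 ≤ Q * (R0 : ℝ) ^ 5 * 1 := by
          rw [mul_one]
          gcongr
      _ ≤ Q * (R0 : ℝ) ^ 5 * ((R0 : ℝ) ^ c * (R : ℝ) ^ (-c)) := by gcongr
      _ = Q * (R0 : ℝ) ^ 5 * (R0 : ℝ) ^ c * (R : ℝ) ^ (-c) := by ring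
      _ ≤ _ := by
          apply mul_le_mul_of_nonneg_right _ (by positivity)
          linarith
  · -- large scales
    obtain ⟨q1, q2, q3, q4⟩ := hscale R hge
    set ρ := ⌊(R : ℝ) ^ (1 - e)⌋₊ with hρ
    -- the case of an empty probability space
    rcases (DD T.V).eq_empty_or_nonempty with hemp | ⟨ω0, hω0⟩
    · have : Ex T.V (fun ω => cEx T.V (Fk T.V k)
          (fun ω' => (hkf k ω' (fL (Ok T k ω) φ (χ ω) (u ω))) ^ 2) ω) = 0 := by
        unfold Ex
        rw [hemp]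
        simp
      rw [this]
      positivity
    have hC00 : 0 ≤ C0 := cut_C0_nonneg (hχ ω0 hω0)
    have hCpe : C0 ≤ Cp := le_max_left _ _
    have hCPf : CP T.faceSet := by
      have := L.l_cp T 0 ω0 hω0
      rwa [Ok_zero] at this
    have hD : T.faceSet.Finite := (box (0, 0) R).finite_toSet.subset hfit
    obtain ⟨v, hv⟩ := exists_green hD (fun y => |φ y|)
    have hρR' : (ρ : ℝ) / R ≤ (R : ℝ) ^ (-e) := by
      rw [div_le_iff₀ hRpos]
      calc (ρ : ℝ) ≤ (R : ℝ) ^ (1 - e) := Nat.floor_le (by positivity)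
        _ = (R : ℝ) ^ (-e) * R := by
            rw [sub_eq_neg_add, Real.rpow_add hRpos, Real.rpow_one]
    set lam := Cp * (CG * (R : ℝ) ^ (-η)) with hlam
    have hlam0 : 0 ≤ lam := by positivity
    have hvl : ∀ x, dF T.faceSet x ≤ ρ → v x ≤ lam := by
      intro x hx
      refine (hsmall R T _ v Cp ρ hR hfit hCPf (by linarith) (fun y => ?_) hv x hx).trans ?_
      · rw [abs_abs]
        refine (hφ y).trans ?_
        gcongr
      · rw [hlam]
        gcongr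
        calc ((ρ : ℝ) / R) ^ β' ≤ ((R : ℝ) ^ (-e)) ^ β' :=
              Real.rpow_le_rpow (by positivity) hρR' hβ'.le
          _ = (R : ℝ) ^ (-η) := by
              rw [← Real.rpow_mul hRpos.le, hη]
              congr 1
              ring
    have hφ0 : ∀ y, dF T.faceSet y ≤ ρ + s → φ y = 0 := by
      intro y hy
      by_contra hne
      have h1 := hsuppφ y hne
      have h2 : (dF T.faceSet y : ℝ) ≤ (ρ : ℝ) + s := by exact_mod_cast hy
      have h3 : C0 * (dF T.faceSet y : ℝ) ≤ Cp * ((ρ : ℝ) + s) :=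
        mul_le_mul hCpe h2 (by positivity) (by linarith)
      linarith
    -- block I
    have hV : Ex T.V (fun ω => (hf ω (g3 T v lam)) ^ 2) ≤ VI' * (R : ℝ) ^ (-cI) := by
      have h1 := hVI R T (fun y => |φ y|) v lam hR hfit
        (fun y => ⟨abs_nonneg _, (hφ y).trans (by
          gcongr
          exact hCpe.trans (le_max_left _ _))⟩)
        (fun y hy => by
          have h2 := hsuppφ y (fun h => hy (by rw [h, abs_zero]))
          refine h2.trans ?_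
          gcongr
          exact hCpe.trans (le_max_left _ _)) hv hlam0
        (by
          rw [hlam, ← mul_assoc]
          gcongr
          exact le_max_right _ _)
      rw [Ex_congr (g' := fun ω => (hf ω (fun x => lap (fun y => min (v y) lam) x)) ^ 2)
        (fun ω hω => hf_g3 hω)]
      refine h1.trans ?_
      gcongr
      exact le_max_left _ _
    -- block F
    have hpE : ∀ x y, ρ < dn x y → ρ < dF T.faceSet x → ρ < dF T.faceSet y →
        Pr T.V (fun ω => PairEv ω x y (2 * s + 1)) ≤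
          CF * (2 * (s : ℝ) + 1) ^ CF / ((ρ : ℝ) + 1) ^ 4 := by
      intro x y hxy hx hy
      have h1 := hCF0 T x y (2 * s + 1) (ρ + 1) (by omega)
        (by
          push_cast
          refine le_trans ?_ q4
          gcongr
          exact le_max_left _ _) (by omega) (by omega) (by omega)
      push_cast at h1
      refine h1.trans ?_
      gcongr
      · exact le_max_left _ _
      · linarith
      · exact le_max_left _ _
    have hmain := core hfit hk (C0 := C0) (M := M) (γ := γ) (K0 := K0) (K := (R : ℝ) ^ c)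
      (V3 := VI' * (R : ℝ) ^ (-cI))
      (pE := CF * (2 * (s : ℝ) + 1) ^ CF / ((ρ : ℝ) + 1) ^ 4) (τ := Cτ * (R : ℝ) ^ (-1 : ℝ)) hM0
      (fun O s χ φ u h1 h2 h3 h4 h5 h6 => hM R O s χ φ u hR h1 h2 h3 h4 h5 h6) φ hφ u χ hs1 q1 q2
      hu hχ (by positivity) (ρ3 := ρ) (g := g3 T v lam)
      (fun ω hω ω' hω' l hl hlev => by
        have hω1 : ω' ∈ DD T.V := (atom_facts (L.l_expl T k) hω hω').1
        set A : Set Pt := {x | surr ω' l x} with hA
        have hOk := Ok_atom hω hω'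
        have h1 := hnb T.faceSet (Ok T k ω) A hD s (χ ω) φ (u ω) v lam ρ (L.l_cp T k ω hω)
          (Ok_sub T k ω)
          (fun x hx => by
            rw [← hOk]
            exact sub_Ok hω1 hl hlev hx)
          (fun x hx y hy hxy => by
            rw [← hOk] at hy
            exact l_adj hk hω1 hl hlev hxy hx hy)
          hs1 (hχ ω hω) (hu ω hω) hv hlam0 hvl hφ0 (box (0, 0) R)
        rw [massIn_g3 hfit hD ω' l hA]
        refine le_trans (le_of_eq ?_) h1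
        unfold massIn
        refine Finset.sum_congr rfl (fun x _ => ?_)
        by_cases hx : surr ω' l x
        · rw [if_pos hx]
          unfold fnear
          beta_reduce
          by_cases hx2 : dF T.faceSet x ≤ ρ
          · rw [if_pos hx2, if_pos ⟨hx, hx2⟩]
          · rw [if_neg hx2, if_neg (fun h => hx2 h.2), abs_zero]
        · rw [if_neg hx, if_neg (fun h => hx h.1)])
      (fun x hx => by
        unfold g3
        rw [if_neg (fun h => hx (hfit h))])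
      hV (by positivity) hpE hτ
    refine hmain.trans ?_
    -- numerics
    have n1 : (R : ℝ) ^ c * (K0 ^ 2 * (VI' * (R : ℝ) ^ (-cI))) ≤
        K0 ^ 2 * VI' * (R : ℝ) ^ (-c) := by
      calc (R : ℝ) ^ c * (K0 ^ 2 * (VI' * (R : ℝ) ^ (-cI)))
          = K0 ^ 2 * VI' * ((R : ℝ) ^ c * (R : ℝ) ^ (-cI)) := by ring
        _ = K0 ^ 2 * VI' * (R : ℝ) ^ (c + -cI) := by rw [← Real.rpow_add hRpos]
        _ ≤ _ := by
            apply mul_le_mul_of_nonneg_left _ (by positivity)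
            apply Real.rpow_le_rpow_of_exponent_le hR1
            linarith
    have n2 : Cτ * (R : ℝ) ^ (-1 : ℝ) * M ^ 2 ≤ Cτ * M ^ 2 * (R : ℝ) ^ (-c) := by
      have : (R : ℝ) ^ (-1 : ℝ) ≤ (R : ℝ) ^ (-c) :=
        Real.rpow_le_rpow_of_exponent_le hR1 (by linarith)
      calc Cτ * (R : ℝ) ^ (-1 : ℝ) * M ^ 2 = Cτ * M ^ 2 * (R : ℝ) ^ (-1 : ℝ) := by ring
        _ ≤ _ := by gcongr
    have n3 : (R : ℝ) ^ c * (M * (M * ((ρ : ℝ) / R) ^ γ)) ≤ M * M * (R : ℝ) ^ (-c) := by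
      have h1 : ((ρ : ℝ) / R) ^ γ ≤ (R : ℝ) ^ (-e * γ) := by
        calc ((ρ : ℝ) / R) ^ γ ≤ ((R : ℝ) ^ (-e)) ^ γ :=
              Real.rpow_le_rpow (by positivity) hρR' hγ.le
          _ = _ := by rw [← Real.rpow_mul hRpos.le]
      calc (R : ℝ) ^ c * (M * (M * ((ρ : ℝ) / R) ^ γ))
          ≤ (R : ℝ) ^ c * (M * (M * (R : ℝ) ^ (-e * γ))) := by gcongr
        _ = M * M * ((R : ℝ) ^ c * (R : ℝ) ^ (-e * γ)) := by ring
        _ = M * M * (R : ℝ) ^ (c + -e * γ) := by rw [← Real.rpow_add hRpos]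
        _ ≤ _ := by
            apply mul_le_mul_of_nonneg_left _ (by positivity)
            apply Real.rpow_le_rpow_of_exponent_le hR1
            linarith
    have hexpo : c + 2 * ((a - 1) * γ) + 4 + a * CF - 4 * (1 - e) ≤ -c := by
      have h1 : 4 * e = γ / 2 := by rw [he]; ring
      have h2 : c + 2 * ((a - 1) * γ) + 4 + a * CF - 4 * (1 - e) =
        c - 2 * γ + a * (2 * γ + CF) + 4 * e := by ring
      rw [h2, h1]
      linarith
    have n4 := far_num (R := R) hR (a := a) (e := e) (γ := γ) (CF := CF) (c := c) (M := M) hγ hγ1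
      hCF1 hM0 ha0.le hexpo
    rw [← hs, ← hρ] at n4
    have hQR : 0 ≤ Q * (R0 : ℝ) ^ 5 * (R0 : ℝ) ^ c * (R : ℝ) ^ (-c) := by positivity
    calc _ ≤ 2 * (K0 ^ 2 * VI' * (R : ℝ) ^ (-c) + Cτ * M ^ 2 * (R : ℝ) ^ (-c)) +
          2 * (M * M * (R : ℝ) ^ (-c) + 324 * M ^ 2 * CF * 5 ^ CF * (R : ℝ) ^ (-c) +
            Cτ * M ^ 2 * (R : ℝ) ^ (-c)) := by
          gcongr
      _ = Cf * (R : ℝ) ^ (-c) := by rw [hCf]; ring
      _ ≤ _ := by
          rw [add_mul]
          linarith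

/-- BLOCK I, `k = 0`. -/
def I_zero : Prop := ∃ a0 > (0 : ℝ), ∀ a : ℝ, 0 < a → a ≤ a0 → ∀ C0 : ℝ,
  ∃ c > (0 : ℝ), ∃ C : ℝ, ∀ (R : ℕ) (T : Temp) (φ : Pt → ℝ), HConcl a 0 C0 c C R T φ

/-- **H_final** from blocks C, F, G, I. -/
theorem h_final (hdec : G_decay) (hheight : C_height) (hF : F_pair) (hI : I_min)
    (hI0 : I_zero) : H_final := by
  obtain ⟨a1, ha1, h1⟩ := h_pos hdec hheight hF hI
  obtain ⟨a2, ha2, h2⟩ := hI0
  refine ⟨min a1 a2, lt_min ha1 ha2, ?_⟩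
  intro a ha ha' k C0
  rcases Nat.eq_zero_or_pos k with rfl | hk
  · exact h2 a ha (ha'.trans (min_le_right _ _)) C0
  · exact h1 a ha (ha'.trans (min_le_left _ _)) k C0 hk

end Vale.Agent.P155.H12
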