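import Vale.Agent.P155.H12.Layer
import Vale.Agent.P155.L.Hk
import Vale.Agent.P155.L.Nest
import Vale.Agent.P155.A.InLoop
import Vale.Agent.P155.HT426.Cov

/-!
# P155, block H: the topological and combinatorial inputs are theorems
-/

namespace Vale.Agent.P155.H12

open Finset Vale.Agent.P155 Vale.Agent.P155.Skel

theorem l_step : L_step := by
  intro V ω hω L hL f g hfg hf hg
  obtain ⟨u, v, hu, _, _, _, _, _, hb, _⟩ := A1.L_step hω hL hfg hf hg
  exact ⟨u, hu, hb⟩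

theorem l_in : L_in := fun _ _ hω _ hL _ hf => A1.L_in hω hL hf

theorem l_finite : L_finite := fun _ _ hω => L.loops_finite hω

/-- the heights vanish off the polygon -/
theorem h_off {T : Temp} {ω : Conf} (hω : ω ∈ DD T.V) {x : Pt} (hx : x ∉ T.faceSet) :
    h ω x = 0 := by
  have h1 := (L.l_hk T 0 ω hω ω hω ⟨fun _ _ => rfl, fun _ _ => rfl⟩).2.2 x
    (fun h' => hx h'.1)
  rw [h1, hk_zero (l_finite _ _ hω)]

theorem Ok_zero (T : Temp) (ω : Conf) : Ok T 0 ω = T.faceSet := by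
  ext x
  simp [Ok]

theorem Ok_sub (T : Temp) (k : ℕ) (ω : Conf) : Ok T k ω ⊆ T.faceSet := fun _ hx => hx.1

theorem l_adj {T : Temp} {k : ℕ} (hk : 1 ≤ k) {ω : Conf} (hω : ω ∈ DD T.V) {l : Set Pt}
    (hl : l ∈ Loops ω) (hlev : level ω l = k) {x y : Pt} (hxy : Adj x y) (hx : surr ω l x)
    (hy : y ∈ Ok T k ω) : surr ω l y :=
  L.same_level_adj hω hk hl hlev hxy hx hy.2

theorem sub_Ok {T : Temp} {k : ℕ} {ω : Conf} (hω : ω ∈ DD T.V) {l : Set Pt}
    (hl : l ∈ Loops ω) (hlev : level ω l = k) {x : Pt} (hx : surr ω l x) : x ∈ Ok T k ω := by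
  refine ⟨l_in T ω hω l hl x hx, ?_⟩
  rw [← hlev]
  exact level_le_N (l_finite _ _ hω) hx

theorem Ok_atom {T : Temp} {k : ℕ} {ω ω' : Conf} (hω : ω ∈ DD T.V)
    (hω' : ω' ∈ atom T.V (Fk T.V k) ω) : Ok T k ω' = Ok T k ω := by
  classical
  unfold atom at hω'
  rw [Finset.mem_filter] at hω'
  exact (L.l_hk T k ω hω ω' hω'.1 hω'.2).1

end Vale.Agent.P155.H12
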