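import Vale.Agent.P155.G45.Mass
import Vale.Agent.P155.G45.Harnack

/-!
# P155, block H: the part of the layer function near the boundary of the domain

`g₃ = -Δ min(u_D, λ)` dominates, loop by loop, the mass of the layer function near `∂D`.
-/

namespace Vale.Agent.P155.H12

open Finset Vale.Agent.P155 Vale.Agent.P155.G45

/-- Probability of hitting `U` before leaving `A`. -/
theorem exists_hit {A : Set Pt} (hA : A.Finite) (U : Set Pt) :
    ∃ q : Pt → ℝ, (∀ x, 0 ≤ q x) ∧ (∀ x, q x ≤ 1) ∧ (∀ x, x ∉ A → q x = 0) ∧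
      (∀ x ∈ A, x ∉ U → lap q x = 0) ∧ (∀ x ∈ A, x ∈ U → q x = 1) ∧
      (∀ x ∈ A, lap q x ≤ 0) := by
  classical
  set D : Set Pt := {x | x ∈ A ∧ x ∉ U} with hD
  have hDf : D.Finite := hA.subset (fun x hx => hx.1)
  obtain ⟨w, hw1, hw2⟩ := exists_dirichlet hDf (fun _ => 0)
    (fun x => if x ∈ A then (1 : ℝ) else 0)
  have h0 : ∀ x, 0 ≤ w x := by
    apply comparison hDf (u := fun _ => 0)
    · intro x hx
      rw [lap_const]; linarith [hw2 x hx]
    · intro x hx
      rw [hw1 x hx]; split_ifs <;> norm_num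
  have h1 : ∀ x, w x ≤ 1 := by
    apply comparison hDf (v := fun _ => 1)
    · intro x hx
      rw [lap_const]; linarith [hw2 x hx]
    · intro x hx
      rw [hw1 x hx]; split_ifs <;> norm_num
  have hone : ∀ x ∈ A, x ∈ U → w x = 1 := by
    intro x hx hd
    rw [hw1 x (fun h => h.2 hd)]
    simp [hx]
  refine ⟨w, h0, h1, ?_, ?_, hone, ?_⟩
  · intro x hx
    rw [hw1 x (fun h => hx h.1)]
    simp [hx]
  · intro x hx hd
    have := hw2 x ⟨hx, hd⟩
    linarith
  · intro x hx
    by_cases h : x ∈ U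
    · unfold lap
      rw [hone x hx h]
      linarith [h1 (x.1 + 1, x.2), h1 (x.1 - 1, x.2), h1 (x.1, x.2 + 1), h1 (x.1, x.2 - 1)]
    · have := hw2 x ⟨hx, h⟩
      linarith

/-- Truncated potentials are superharmonic. -/
theorem lap_min_le {D : Set Pt} {Φ v : Pt → ℝ} (hΦ : ∀ x ∈ D, 0 ≤ Φ x) (hv : IsGreen D Φ v)
    (lam : ℝ) {x : Pt} (hx : x ∈ D) : lap (fun y => min (v y) lam) x ≤ 0 := by
  unfold lap
  beta_reduce
  rcases le_total (v x) lam with h | h
  · have h1 := hv.eq x hx
    have h2 := hΦ x hx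
    unfold lap at h1
    rw [min_eq_left h]
    have a1 := min_le_left (v (x.1 + 1, x.2)) lam
    have a2 := min_le_left (v (x.1 - 1, x.2)) lam
    have a3 := min_le_left (v (x.1, x.2 + 1)) lam
    have a4 := min_le_left (v (x.1, x.2 - 1)) lam
    linarith
  · rw [min_eq_right h]
    have a1 := min_le_right (v (x.1 + 1, x.2)) lam
    have a2 := min_le_right (v (x.1 - 1, x.2)) lam
    have a3 := min_le_right (v (x.1, x.2 + 1)) lam
    have a4 := min_le_right (v (x.1, x.2 - 1)) lam
    linarith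

/-- Duality: the truncated potential carries at least as much mass. -/
theorem duality {D A U : Set Pt} (hD : D.Finite) (hAD : A ⊆ D) {Φ v : Pt → ℝ}
    (hv : IsGreen D Φ v) {lam : ℝ} (hlam : 0 ≤ lam)
    (hU : ∀ x ∈ U, v x ≤ lam) {q : Pt → ℝ} (hq0 : ∀ x, 0 ≤ q x)
    (hqoff : ∀ x, x ∉ A → q x = 0) (hqh : ∀ x ∈ A, x ∉ U → lap q x = 0) :
    ∑ x ∈ hD.toFinset, Φ x * q x ≤
      ∑ x ∈ hD.toFinset, (- lap (fun y => min (v y) lam) x) * q x := by
  set ψ : Pt → ℝ := fun y => min (v y) lam with hψ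
  have hqD : ∀ x, x ∉ D → q x = 0 := fun x hx => hqoff x (fun h => hx (hAD h))
  have hqs : (Function.support q).Finite := hD.subset (lap_support hqD)
  have hvs : (Function.support v).Finite := hD.subset (lap_support hv.off)
  have hψs : (Function.support ψ).Finite := by
    refine hD.subset (lap_support (fun x hx => ?_))
    rw [hψ]
    simp only [hv.off x hx]
    exact min_eq_left hlam
  have e1 := finsum_lap_mul hvs hqs
  have e2 := finsum_lap_mul hψs hqs
  have toSum : ∀ g : Pt → ℝ, ∑ᶠ x, g x * q x = ∑ x ∈ hD.toFinset, g x * q x := by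
    intro g
    apply finsum_eq_sum_of_support_subset
    intro x hx
    rw [Finset.mem_coe, Set.Finite.mem_toFinset]
    by_contra h
    exact hx (by simp [hqD x h])
  have h1 : ∑ x ∈ hD.toFinset, Φ x * q x = - ∑ᶠ x, lap v x * q x := by
    rw [toSum (lap v), ← Finset.sum_neg_distrib]
    refine Finset.sum_congr rfl (fun x hx => ?_)
    rw [← hv.eq x (by simpa using hx)]
    ring
  have h2 : ∑ x ∈ hD.toFinset, (- lap ψ x) * q x = - ∑ᶠ x, lap ψ x * q x := by
    rw [toSum (lap ψ), ← Finset.sum_neg_distrib]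
    refine Finset.sum_congr rfl (fun x _ => ?_)
    ring
  rw [h1, h2, e1, e2]
  have hfin : ∀ g : Pt → ℝ, (Function.support g).Finite →
      (Function.support (fun x => g x * lap q x)).Finite := fun g hg => by
    refine hg.subset (fun x hx => ?_)
    intro h
    exact hx (by simp [h])
  have h3 : ∑ᶠ x, v x * lap q x - ∑ᶠ x, ψ x * lap q x = ∑ᶠ x, (v x - ψ x) * lap q x := by
    rw [← finsum_sub_distrib (hfin v hvs) (hfin ψ hψs)]
    refine finsum_congr (fun x => ?_)
    ring
  have h4 : 0 ≤ ∑ᶠ x, (v x - ψ x) * lap q x := by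
    refine finsum_nonneg (fun x => ?_)
    have h5 : 0 ≤ v x - ψ x := by
      rw [hψ]
      simp only
      linarith [min_le_left (v x) lam]
    by_cases hxA : x ∈ A
    · by_cases hxU : x ∈ U
      · have : v x - ψ x = 0 := by
          rw [hψ]
          simp only
          rw [min_eq_left (hU x hxU), sub_self]
        rw [this, zero_mul]
      · rw [hqh x hxA hxU, mul_zero]
    · refine mul_nonneg h5 ?_
      unfold lap
      rw [hqoff x hxA]
      linarith [hq0 (x.1 + 1, x.2), hq0 (x.1 - 1, x.2), hq0 (x.1, x.2 + 1), hq0 (x.1, x.2 - 1)]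
  linarith

open Classical in
/-- Mass of the layer inside one component, near the boundary of `D`. -/
theorem near_mass {C β : ℝ} (hβ : 0 < β) (hC : 0 ≤ C) (hSD : SupDecay C β) :
    ∃ K : ℝ, 0 < K ∧ ∀ (D O A U : Set Pt) (hD : D.Finite), CPr O → O ⊆ D → A ⊆ O →
      (∀ x ∈ A, ∀ y ∈ O, Adj x y → y ∈ A) → ∀ (Φ u v : Pt → ℝ) (lam : ℝ),
      (∀ x ∈ D, 0 ≤ Φ x) → IsGreen O Φ u → IsGreen D Φ v → 0 ≤ lam →
      (∀ x ∈ U, v x ≤ lam) → ∀ (r : ℕ), 1 ≤ r → ∀ S : Finset Pt,
      (∀ x ∈ S, x ∈ A ∧ x ∈ U ∧ dF O x ≤ 2 * r) →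
      ∑ x ∈ S, u x ≤ K * (r : ℝ) ^ 2 * ∑ x ∈ hD.toFinset, if x ∈ A then
        - lap (fun y => min (v y) lam) x else 0 := by
  obtain ⟨K, hK, h⟩ := visits_local hβ hC hSD
  refine ⟨K, hK, ?_⟩
  intro D O A U hD hCP hOD hAO hadj Φ u v lam hΦ hu hv hlam hU r hr S hS
  have hO : O.Finite := hD.subset hOD
  have hA : A.Finite := hO.subset hAO
  obtain ⟨q, hq0, hq1, hqoff, hqh, hqone, hqs⟩ := exists_hit hA U
  have h1 := h O hO hCP r hr S Φ u q (fun x hx => (hS x hx).2.2) hu
    (fun x hx => hΦ x (hOD hx)) hq0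
    (fun x hx _ => by
      by_cases hxA : x ∈ A
      · exact hqs x hxA
      · have hn : ∀ y, Adj x y → q y = 0 := by
          intro y hy
          by_cases hyA : y ∈ A
          · exfalso
            apply hxA
            apply hadj y hyA x hx
            unfold Adj at hy ⊢
            rw [abs_sub_comm y.1, abs_sub_comm y.2]
            exact hy
          · exact hqoff y hyA
        unfold lap
        rw [hn _ (adj_right x), hn _ (adj_left x), hn _ (adj_up x), hn _ (adj_down x),
          hqoff x hxA]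
        norm_num)
    (fun x hx => (hqone x (hS x hx).1 (hS x hx).2.1).ge)
  refine h1.trans ?_
  gcongr
  calc ∑ x ∈ hO.toFinset, Φ x * q x ≤ ∑ x ∈ hD.toFinset, Φ x * q x := by
        refine Finset.sum_le_sum_of_subset_of_nonneg (fun x hx => ?_) (fun x hx _ => ?_)
        · rw [Set.Finite.mem_toFinset] at hx ⊢
          exact hOD hx
        · rw [Set.Finite.mem_toFinset] at hx
          exact mul_nonneg (hΦ x hx) (hq0 x)
    _ ≤ ∑ x ∈ hD.toFinset, (- lap (fun y => min (v y) lam) x) * q x :=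
        duality hD (hAO.trans hOD) hv hlam hU hq0 hqoff hqh
    _ ≤ _ := by
        refine Finset.sum_le_sum (fun x hx => ?_)
        rw [Set.Finite.mem_toFinset] at hx
        have h2 : 0 ≤ - lap (fun y => min (v y) lam) x := by
          linarith [lap_min_le hΦ hv lam hx]
        split_ifs with hxA
        · calc (- lap (fun y => min (v y) lam) x) * q x ≤
                (- lap (fun y => min (v y) lam) x) * 1 :=
              mul_le_mul_of_nonneg_left (hq1 x) h2
            _ = _ := mul_one _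
        · rw [hqoff x hxA, mul_zero]

end Vale.Agent.P155.H12
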