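import Vale.Agent.P155.H12.FLBd
import Vale.Agent.P155.H12.Dual

/-!
# P155, block H: mass bounds for the layer function
-/

namespace Vale.Agent.P155.H12

open Finset Vale.Agent.P155 Vale.Agent.P155.G45 Vale.Agent.P155.J

theorem card_le_of_box {O : Set Pt} (hO : O.Finite) {R : ℕ} (hR : 1 ≤ R)
    (hOR : O ⊆ (box (0, 0) R : Set Pt)) : (hO.toFinset.card : ℝ) ≤ 9 * (R : ℝ) ^ 2 := by
  have h1 : hO.toFinset ⊆ box (0, 0) R := by
    intro x hx
    rw [Set.Finite.mem_toFinset] at hx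
    exact hOR hx
  have h2 := Finset.card_le_card h1
  rw [card_box] at h2
  have h3 : (hO.toFinset.card : ℝ) ≤ (2 * (R : ℝ) + 1) ^ 2 := by exact_mod_cast h2
  have hR1 : (1 : ℝ) ≤ R := by exact_mod_cast hR
  nlinarith

/-- The constants of the mass bounds: sup, total and local mass of the layer function. -/
theorem mass_bounds {C β : ℝ} (hβ : 0 < β) (hC : 0 ≤ C) (hSD : SupDecay C β)
    (hOut : OutDecay C β) :
    ∃ γ > (0 : ℝ), γ ≤ 1 ∧ ∀ C0 : ℝ, ∃ M : ℝ, 0 ≤ M ∧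
      ∀ (R : ℕ) (O : Set Pt) (s : ℕ) (χ φ u : Pt → ℝ), 1 ≤ R →
      O ⊆ (box (0, 0) R : Set Pt) → CPr O → 1 ≤ s → IsCut O s C0 χ → IsGreen O φ u →
      (∀ y, |φ y| ≤ C0 / (R : ℝ) ^ 2) →
      ∑ x ∈ box (0, 0) R, |fL O φ χ u x| ≤ M ∧
      (∀ (p : Pt) (ρ : ℕ), s ≤ ρ → ρ ≤ R →
        ∑ x ∈ box p ρ, |fL O φ χ u x| ≤ M * ((ρ : ℝ) / R) ^ γ) := by
  classical
  obtain ⟨γ, hγ, hγ1, -, D', hD', hbox⟩ := visits_box' hβ hC hSD hOut
  obtain ⟨D, hD, hvis⟩ := visits hβ hC hSD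
  obtain ⟨A, hA, hfl⟩ := fL_bound hβ hC hSD
  refine ⟨γ, hγ, hγ1, fun C0 => ?_⟩
  set Cp := max C0 0 with hCp
  have hCp0 : 0 ≤ Cp := le_max_right _ _
  set K1 := 100 * A * (Cp + 1) with hK1
  have hK10 : 0 ≤ K1 := by positivity
  refine ⟨K1 * (D * (9 * Cp)) + K1 * (D' * Cp) + K1 * (9 * Cp), by positivity, ?_⟩
  intro R O s χ φ u hR hOR hCP hs hχ hu hφ
  have hC00 : 0 ≤ C0 := cut_C0_nonneg hχ
  have hCpe : Cp = C0 := max_eq_left hC00
  have hR1 : (1 : ℝ) ≤ R := by exact_mod_cast hR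
  have hs1 : (1 : ℝ) ≤ s := by exact_mod_cast hs
  have hO : O.Finite := (box (0, 0) R).finite_toSet.subset hOR
  have hOq : ∃ q, q ∉ O := exists_notMem hO
  set c := C0 / (R : ℝ) ^ 2 with hc
  have hc0 : 0 ≤ c := by positivity
  obtain ⟨ub, hub⟩ := exists_green hO (fun _ => c)
  have hub0 := green_nonneg hO hub (fun _ _ => hc0)
  have hdom : ∀ y, |u y| ≤ ub y := abs_green_le hO hu hub (fun x _ => hφ x)
  -- pointwise bound
  have hpt : ∀ x, |fL O φ χ u x| ≤
      if x ∈ O ∧ dF O x ≤ 2 * s then K1 * (ub x / s ^ 2 + c) else 0 := by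
    intro x
    by_cases h0 : fL O φ χ u x = 0
    · rw [h0, abs_zero]
      split_ifs
      · have := hub0 x
        positivity
      · exact le_rfl
    · have h1 := fL_supp hOq hs hχ hu h0
      rw [if_pos h1]
      rcases Nat.lt_or_ge (dF O x) s with h2 | h2
      · rw [fL_below hOq hχ h1.1 h2]
        refine (hφ x).trans ?_
        have h3 : 0 ≤ ub x / (s : ℝ) ^ 2 := div_nonneg (hub0 x) (by positivity)
        have h4 : 1 ≤ K1 := by
          rw [hK1]
          nlinarith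
        nlinarith
      · have h3 := hfl O s C0 χ φ u ub c x hOq hs hχ hu h2 hc0 hdom
          (fun y hy => hub.eq y (mem_of_lt_dF (x := x) (by omega))) (fun y _ => hφ y)
        rw [hK1, hCpe]
        exact h3
  -- sum over a finite set
  have hsum : ∀ S : Finset Pt, ∑ x ∈ S, |fL O φ χ u x| ≤
      K1 / s ^ 2 * (∑ x ∈ S.filter (fun x => x ∈ O ∧ dF O x ≤ 2 * s), ub x) +
        K1 * (c * S.card) := by
    intro S
    calc ∑ x ∈ S, |fL O φ χ u x|
        ≤ ∑ x ∈ S, (if x ∈ O ∧ dF O x ≤ 2 * s then K1 * (ub x / s ^ 2 + c) else 0) :=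
          Finset.sum_le_sum (fun x _ => hpt x)
      _ = ∑ x ∈ S.filter (fun x => x ∈ O ∧ dF O x ≤ 2 * s), K1 * (ub x / s ^ 2 + c) := by
          rw [Finset.sum_filter]
      _ = K1 / s ^ 2 * (∑ x ∈ S.filter (fun x => x ∈ O ∧ dF O x ≤ 2 * s), ub x) +
            K1 * (c * (S.filter (fun x => x ∈ O ∧ dF O x ≤ 2 * s)).card) := by
          rw [← Finset.mul_sum, Finset.sum_add_distrib, ← Finset.sum_div, Finset.sum_const,
            nsmul_eq_mul]
          ring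
      _ ≤ _ := by
          have h1 : ((S.filter (fun x => x ∈ O ∧ dF O x ≤ 2 * s)).card : ℝ) ≤ S.card := by
            exact_mod_cast Finset.card_filter_le _ _
          gcongr
  constructor
  · refine (hsum _).trans ?_
    have h1 := hvis O hO hCP s hs ((box (0, 0) R).filter (fun x => x ∈ O ∧ dF O x ≤ 2 * s))
      (fun _ => c) ub (fun x hx => (Finset.mem_filter.1 hx).2.2) hub (fun _ _ => hc0)
    rw [Finset.sum_const, nsmul_eq_mul] at h1
    have h2 : (hO.toFinset.card : ℝ) * c ≤ 9 * Cp := by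
      calc (hO.toFinset.card : ℝ) * c ≤ (9 * (R : ℝ) ^ 2) * c :=
            mul_le_mul_of_nonneg_right (card_le_of_box hO hR hOR) hc0
        _ = 9 * Cp := by
            rw [hc, hCpe]
            field_simp
    have h3 : ((box (0, 0) R).card : ℝ) * c ≤ 9 * Cp := by
      rw [card_box]
      push_cast
      calc ((2 * (R : ℝ) + 1) ^ 2) * c ≤ (9 * (R : ℝ) ^ 2) * c := by
            apply mul_le_mul_of_nonneg_right _ hc0
            nlinarith
        _ = 9 * Cp := by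
            rw [hc, hCpe]
            field_simp
    have h4 : K1 / (s : ℝ) ^ 2 * (∑ x ∈ (box (0, 0) R).filter
        (fun x => x ∈ O ∧ dF O x ≤ 2 * s), ub x) ≤ K1 * (D * (9 * Cp)) := by
      calc K1 / (s : ℝ) ^ 2 * (∑ x ∈ (box (0, 0) R).filter
            (fun x => x ∈ O ∧ dF O x ≤ 2 * s), ub x)
          ≤ K1 / (s : ℝ) ^ 2 * (D * (s : ℝ) ^ 2 * (9 * Cp)) := by
            gcongr
            exact h1.trans (by gcongr)
        _ = K1 * (D * (9 * Cp)) := by field_simp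
    have h5 : 0 ≤ K1 * (D' * Cp) := by positivity
    have h6 : K1 * (c * ((box (0, 0) R).card : ℝ)) ≤ K1 * (9 * Cp) := by
      rw [mul_comm c]
      gcongr
    linarith
  · intro p ρ hsρ hρR
    have hρ1 : (1 : ℝ) ≤ ρ := by exact_mod_cast hs.trans hsρ
    have hρR' : (ρ : ℝ) / R ≤ 1 := by
      rw [div_le_one (by linarith)]
      exact_mod_cast hρR
    have hq0 : 0 ≤ (ρ : ℝ) / R := by positivity
    refine (hsum _).trans ?_
    have h1 := hbox O hO hCP R (0, 0) hR (fun x hx => mem_box.1 (hOR hx)) (fun _ => c) ub C0 hC00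
      hub (fun _ _ => hc0) (fun _ _ => le_rfl) p s ρ hs hsρ
      ((box p ρ).filter (fun x => x ∈ O ∧ dF O x ≤ 2 * s))
      (fun x hx => mem_box.1 (Finset.mem_filter.1 hx).1)
      (fun x hx => (Finset.mem_filter.1 hx).2.2)
    have h2 : ((ρ : ℝ) / R) ^ 2 ≤ ((ρ : ℝ) / R) ^ γ := by
      rw [← Real.rpow_natCast]
      apply Real.rpow_le_rpow_of_exponent_ge (by positivity) hρR'
      push_cast
      linarith
    have h4 : K1 / (s : ℝ) ^ 2 * (∑ x ∈ (box p ρ).filter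
        (fun x => x ∈ O ∧ dF O x ≤ 2 * s), ub x) ≤ K1 * (D' * Cp) * ((ρ : ℝ) / R) ^ γ := by
      calc K1 / (s : ℝ) ^ 2 * (∑ x ∈ (box p ρ).filter
            (fun x => x ∈ O ∧ dF O x ≤ 2 * s), ub x)
          ≤ K1 / (s : ℝ) ^ 2 * (D' * C0 * (s : ℝ) ^ 2 * ((ρ : ℝ) / R) ^ γ) := by gcongr
        _ = K1 * (D' * Cp) * ((ρ : ℝ) / R) ^ γ := by
            rw [hCpe]
            field_simp
    have h5 : K1 * (c * ((box p ρ).card : ℝ)) ≤ K1 * (9 * Cp) * ((ρ : ℝ) / R) ^ γ := by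
      have h6 : c * ((box p ρ).card : ℝ) ≤ 9 * Cp * ((ρ : ℝ) / R) ^ γ := by
        rw [card_box]
        push_cast
        calc c * (2 * (ρ : ℝ) + 1) ^ 2 ≤ c * (9 * (ρ : ℝ) ^ 2) := by
              apply mul_le_mul_of_nonneg_left _ hc0
              nlinarith
          _ = 9 * Cp * ((ρ : ℝ) / R) ^ 2 := by
              rw [hc, hCpe]
              field_simp
          _ ≤ _ := by gcongr
      calc K1 * (c * ((box p ρ).card : ℝ)) ≤ K1 * (9 * Cp * ((ρ : ℝ) / R) ^ γ) := by gcongr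
        _ = _ := by ring
    have h7 : 0 ≤ K1 * (D * (9 * Cp)) * ((ρ : ℝ) / R) ^ γ := by positivity
    calc _ ≤ K1 * (D' * Cp) * ((ρ : ℝ) / R) ^ γ + K1 * (9 * Cp) * ((ρ : ℝ) / R) ^ γ :=
          add_le_add h4 h5
      _ ≤ _ := by
          rw [add_mul, add_mul]
          linarith

open Classical in
/-- **Near-boundary bound** of the layer function inside one component. -/
theorem near_bound {C β : ℝ} (hβ : 0 < β) (hC : 0 ≤ C) (hSD : SupDecay C β) (C0 : ℝ) :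
    ∃ K : ℝ, 0 ≤ K ∧ ∀ (D O A : Set Pt) (hD : D.Finite) (s : ℕ) (χ φ u v : Pt → ℝ) (lam : ℝ)
      (ρ3 : ℕ), CPr O → O ⊆ D → A ⊆ O → (∀ x ∈ A, ∀ y ∈ O, Adj x y → y ∈ A) → 1 ≤ s →
      IsCut O s C0 χ → IsGreen O φ u → IsGreen D (fun y => |φ y|) v → 0 ≤ lam →
      (∀ x, dF D x ≤ ρ3 → v x ≤ lam) → (∀ y, dF D y ≤ ρ3 + s → φ y = 0) →
      ∀ S : Finset Pt, (∑ x ∈ S, if x ∈ A ∧ dF D x ≤ ρ3 then |fL O φ χ u x| else 0) ≤
        K * ∑ x ∈ hD.toFinset, if x ∈ A then - lap (fun y => min (v y) lam) x else 0 := by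
  obtain ⟨A0, hA0, hfl⟩ := fL_bound hβ hC hSD
  obtain ⟨K, hK, hnm⟩ := near_mass hβ hC hSD
  set Cp := max C0 0 with hCp
  refine ⟨100 * A0 * (Cp + 1) * K, by positivity, ?_⟩
  intro D O A hD s χ φ u v lam ρ3 hCP hOD hAO hadj hs hχ hu hv hlam hvl hφ0 S
  have hC00 : 0 ≤ C0 := cut_C0_nonneg hχ
  have hCpe : Cp = C0 := max_eq_left hC00
  have hO : O.Finite := hD.subset hOD
  have hOq : ∃ q, q ∉ O := exists_notMem hO
  have hDq : ∃ q, q ∉ D := exists_notMem hD
  have hs1 : (1 : ℝ) ≤ s := by exact_mod_cast hs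
  obtain ⟨u1, hu1⟩ := exists_green hO (fun y => |φ y|)
  have hu10 := green_nonneg hO hu1 (fun x _ => abs_nonneg _)
  have hdom : ∀ y, |u y| ≤ u1 y := abs_green_le hO hu hu1 (fun x _ => le_rfl)
  set U : Set Pt := {x | dF D x ≤ ρ3} with hU
  set S' := S.filter (fun x => x ∈ A ∧ dF D x ≤ ρ3 ∧ dF O x ≤ 2 * s) with hS'
  have hpt : ∀ x, x ∈ A → dF D x ≤ ρ3 → |fL O φ χ u x| ≤
      if dF O x ≤ 2 * s then 100 * A0 * (Cp + 1) * (u1 x / s ^ 2) else 0 := by
    intro x hxA hxU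
    by_cases h0 : fL O φ χ u x = 0
    · rw [h0, abs_zero]
      split_ifs
      · have := hu10 x
        positivity
      · exact le_rfl
    · have h1 := fL_supp hOq hs hχ hu h0
      rw [if_pos h1.2]
      rcases Nat.lt_or_ge (dF O x) s with h2 | h2
      · exfalso
        apply h0
        rw [fL_below hOq hχ h1.1 h2]
        exact hφ0 x (by omega)
      · have hz : ∀ y, dn x y < s → φ y = 0 := by
          intro y hy
          apply hφ0
          have := dF_lip hDq y x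
          rw [dn_comm] at this
          omega
        have h3 := hfl O s C0 χ φ u u1 0 x hOq hs hχ hu h2 le_rfl hdom
          (fun y hy => by
            rw [hu1.eq y (mem_of_lt_dF (x := x) (by omega)), hz y hy, abs_zero])
          (fun y hy => by rw [hz y hy, abs_zero])
        rw [add_zero] at h3
        rw [hCpe]
        exact h3
  have h1 : (∑ x ∈ S, if x ∈ A ∧ dF D x ≤ ρ3 then |fL O φ χ u x| else 0) ≤
      100 * A0 * (Cp + 1) / s ^ 2 * ∑ x ∈ S', u1 x := by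
    rw [hS', Finset.sum_filter, Finset.mul_sum]
    refine Finset.sum_le_sum (fun x _ => ?_)
    by_cases hx : x ∈ A ∧ dF D x ≤ ρ3
    · rw [if_pos hx]
      refine (hpt x hx.1 hx.2).trans ?_
      by_cases h2 : dF O x ≤ 2 * s
      · rw [if_pos h2, if_pos ⟨hx.1, hx.2, h2⟩]
        apply le_of_eq
        ring
      · rw [if_neg h2, if_neg (fun h => h2 h.2.2)]
        simp
    · rw [if_neg hx, if_neg (fun h => hx ⟨h.1, h.2.1⟩)]
      simp
  have h2 := hnm D O A U hD hCP hOD hAO hadj (fun y => |φ y|) u1 v lam (fun x _ => abs_nonneg _)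
    hu1 hv hlam (fun x hx => hvl x hx) s hs S'
    (fun x hx => by
      have := (Finset.mem_filter.1 hx).2
      exact ⟨this.1, this.2.1, this.2.2⟩)
  refine h1.trans ?_
  calc 100 * A0 * (Cp + 1) / (s : ℝ) ^ 2 * ∑ x ∈ S', u1 x
      ≤ 100 * A0 * (Cp + 1) / (s : ℝ) ^ 2 * (K * (s : ℝ) ^ 2 *
        ∑ x ∈ hD.toFinset, if x ∈ A then - lap (fun y => min (v y) lam) x else 0) := by
        gcongr
    _ = _ := by
        field_simp

end Vale.Agent.P155.H12
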