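import Vale.Agent.P155.H12.Cov

/-!
# P155, block H: the layer lemma with explicit error terms
-/

namespace Vale.Agent.P155.H12

open Finset Vale.Agent.P155 Vale.Agent.P155.Skel

open Classical in
/-- sum of the large values of `N` over a finite set of faces -/
noncomputable def tauN (S : Finset Pt) (K : ℝ) (ω : Conf) : ℝ :=
  ∑ x ∈ S, if K < (N ω x : ℝ) then (N ω x : ℝ) else 0

theorem tauN_nonneg (S : Finset Pt) (K : ℝ) (ω : Conf) : 0 ≤ tauN S K ω := by
  unfold tauN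
  refine Finset.sum_nonneg (fun x _ => ?_)
  split_ifs <;> positivity

theorem N_le_tau {S : Finset Pt} {K : ℝ} {ω : Conf} {x : Pt} (hx : x ∈ S) (hK : 0 ≤ K) :
    (N ω x : ℝ) ≤ K + tauN S K ω := by
  classical
  by_cases h : K < (N ω x : ℝ)
  · have h1 : (if K < (N ω x : ℝ) then (N ω x : ℝ) else 0) ≤ tauN S K ω := by
      unfold tauN
      refine Finset.single_le_sum (f := fun x => if K < (N ω x : ℝ) then (N ω x : ℝ) else 0)
        (fun y _ => ?_) hx
      split_ifs <;> positivity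
    rw [if_pos h] at h1
    linarith
  · push Not at h
    have := tauN_nonneg S K ω
    linarith

open Classical in
/-- the part of `f` near the boundary of the polygon -/
noncomputable def fnear (T : Temp) (ρ3 : ℕ) (f : Pt → ℝ) : Pt → ℝ :=
  fun x => if dF T.faceSet x ≤ ρ3 then f x else 0

open Classical in
/-- the part of `f` away from the boundary of the polygon -/
noncomputable def ffar (T : Temp) (ρ3 : ℕ) (f : Pt → ℝ) : Pt → ℝ :=
  fun x => if dF T.faceSet x ≤ ρ3 then 0 else f x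

theorem fnear_add_ffar (T : Temp) (ρ3 : ℕ) (f : Pt → ℝ) (x : Pt) :
    fnear T ρ3 f x + ffar T ρ3 f x = f x := by
  unfold fnear ffar
  split_ifs <;> simp

theorem abs_fnear_le (T : Temp) (ρ3 : ℕ) (f : Pt → ℝ) (x : Pt) : |fnear T ρ3 f x| ≤ |f x| := by
  unfold fnear
  split_ifs <;> simp

theorem abs_ffar_le (T : Temp) (ρ3 : ℕ) (f : Pt → ℝ) (x : Pt) : |ffar T ρ3 f x| ≤ |f x| := by
  unfold ffar
  split_ifs <;> simp

theorem abs_fnear_eq (T : Temp) (ρ3 : ℕ) (f : Pt → ℝ) (x : Pt) :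
    |fnear T ρ3 f x| = fnear T ρ3 (fun x => |f x|) x := by
  unfold fnear
  split_ifs <;> simp

open Classical in
/-- both points inside the loop -/
noncomputable def both (ω : Conf) (l : Set Pt) (x y : Pt) : ℝ :=
  (if surr ω l x then (1 : ℝ) else 0) * (if surr ω l y then (1 : ℝ) else 0)

theorem both_nonneg (ω : Conf) (l : Set Pt) (x y : Pt) : 0 ≤ both ω l x y := by
  unfold both
  split_ifs <;> simp

theorem both_eq_one {ω : Conf} {l : Set Pt} {x y : Pt} (hx : surr ω l x) (hy : surr ω l y) :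
    both ω l x y = 1 := by
  unfold both
  simp [hx, hy]

theorem sum_massIn_sq (ω : Conf) (S : Finset Pt) (g : Pt → ℝ) (LF : Finset (Set Pt)) :
    ∑ l ∈ LF, (massIn S ω l g) ^ 2 =
      ∑ x ∈ S, ∑ y ∈ S, g x * g y * ∑ l ∈ LF, both ω l x y := by
  classical
  have h1 : ∀ L : Set Pt, (massIn S ω L g) ^ 2 = ∑ x ∈ S, ∑ y ∈ S,
      g x * g y * both ω L x y := by
    intro L
    unfold massIn both
    rw [sq, Finset.sum_mul_sum]
    refine Finset.sum_congr rfl (fun x _ => Finset.sum_congr rfl (fun y _ => ?_))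
    by_cases a : surr ω L x <;> by_cases b : surr ω L y <;> simp [a, b]
  simp only [h1]
  rw [Finset.sum_comm]
  refine Finset.sum_congr rfl (fun x _ => ?_)
  rw [Finset.sum_comm]
  refine Finset.sum_congr rfl (fun y _ => ?_)
  rw [Finset.mul_sum]

section Pointwise

variable {T : Temp} {R k : ℕ} {ω : Conf}

/-- the loops of level `k` -/
noncomputable def lev (hfin : (Loops ω).Finite) (k : ℕ) : Finset (Set Pt) := by
  classical
  exact hfin.toFinset.filter (fun l => level ω l = k)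

theorem mem_lev {hfin : (Loops ω).Finite} {k : ℕ} {l : Set Pt} :
    l ∈ lev hfin k ↔ l ∈ Loops ω ∧ level ω l = k := by
  classical
  unfold lev
  rw [Finset.mem_filter, Set.Finite.mem_toFinset]

/-- near part, pointwise in `ω` -/
theorem near_pointwise (hfin : L_finite) (hsame : L_same) (hk : 1 ≤ k) (hω : ω ∈ DD T.V)
    (S : Finset Pt) (f : Pt → ℝ) (hsupp : ∀ x, f x ≠ 0 → x ∈ Ok T k ω) {M K : ℝ} (hK : 0 ≤ K)
    (hM : ∑ x ∈ S, |f x| ≤ M) :
    ∑ x ∈ S, ∑ y ∈ S, f x * f y * (Nk k ω x y : ℝ) ≤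
      K * (∑ l ∈ lev (hfin T.V ω hω) k, (massIn S ω l (fun x => |f x|)) ^ 2) +
        tauN S K ω * M ^ 2 := by
  have hτ := tauN_nonneg S K ω
  have hpt : ∀ x ∈ S, ∀ y ∈ S, f x * f y * (Nk k ω x y : ℝ) ≤
      |f x| * |f y| * (K * (∑ l ∈ lev (hfin T.V ω hω) k, both ω l x y) + tauN S K ω) := by
    intro x hx y hy
    have hb : 0 ≤ ∑ l ∈ lev (hfin T.V ω hω) k, both ω l x y :=
      Finset.sum_nonneg (fun l _ => both_nonneg ω l x y)
    by_cases h0 : f x = 0
    · simp [h0]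
    have h1 : f x * f y * (Nk k ω x y : ℝ) ≤ |f x| * |f y| * (Nk k ω x y : ℝ) := by
      refine mul_le_mul_of_nonneg_right ?_ (by positivity)
      rw [← abs_mul]
      exact le_abs_self _
    refine h1.trans (mul_le_mul_of_nonneg_left ?_ (by positivity))
    by_cases hN : Nk k ω x y = 0
    · rw [hN]
      simp only [Nat.cast_zero]
      positivity
    obtain ⟨l, hl, hlk, hlx, hly⟩ := common_level hsame hk hω (hsupp x h0) hN
    have h2 : 1 ≤ ∑ l ∈ lev (hfin T.V ω hω) k, both ω l x y := by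
      have h3 := Finset.single_le_sum (s := lev (hfin T.V ω hω) k) (f := fun l => both ω l x y)
        (fun l _ => both_nonneg ω l x y) (a := l) (mem_lev.2 ⟨hl, hlk⟩)
      simp only [both_eq_one hlx hly] at h3
      exact h3
    have h3 : (Nk k ω x y : ℝ) ≤ K + tauN S K ω := by
      have h4 : (Nk k ω x y : ℝ) ≤ N ω x := by
        exact_mod_cast Nk_le_N (hfin T.V ω hω) k x y
      exact h4.trans (N_le_tau hx hK)
    nlinarith
  calc ∑ x ∈ S, ∑ y ∈ S, f x * f y * (Nk k ω x y : ℝ)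
      ≤ ∑ x ∈ S, ∑ y ∈ S, |f x| * |f y| *
        (K * (∑ l ∈ lev (hfin T.V ω hω) k, both ω l x y) + tauN S K ω) :=
        Finset.sum_le_sum (fun x hx => Finset.sum_le_sum (fun y hy => hpt x hx y hy))
    _ = K * (∑ l ∈ lev (hfin T.V ω hω) k, (massIn S ω l (fun x => |f x|)) ^ 2) +
        tauN S K ω * (∑ x ∈ S, |f x|) ^ 2 := by
        rw [sum_massIn_sq, sq, Finset.sum_mul_sum]
        simp only [Finset.mul_sum, ← Finset.sum_add_distrib]
        refine Finset.sum_congr rfl (fun x _ => Finset.sum_congr rfl (fun y _ => ?_))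
        rw [mul_add, Finset.mul_sum]
        congr 1
        · refine Finset.sum_congr rfl (fun l _ => ?_)
          ring
        · ring
    _ ≤ _ := by
        have h5 : (∑ x ∈ S, |f x|) ^ 2 ≤ M ^ 2 := by
          have h6 : 0 ≤ ∑ x ∈ S, |f x| := Finset.sum_nonneg (fun x _ => abs_nonneg _)
          exact pow_le_pow_left₀ h6 hM 2
        gcongr

open Classical in
/-- number of far pairs under the pair event -/
noncomputable def farCount (T : Temp) (S : Finset Pt) (ρ0 ρ3 s : ℕ) (ω : Conf) : ℝ :=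
  ∑ x ∈ S, ∑ y ∈ S, if ρ0 < dn x y ∧ ρ3 < dF T.faceSet x ∧ ρ3 < dF T.faceSet y ∧
    PairEv ω x y s then (1 : ℝ) else 0

/-- far part, pointwise in `ω` -/
theorem far_pointwise (hst : L_step) (hin : L_in) (hfin : L_finite) (hsame : L_same)
    (hR : Fits T R) (hk : 1 ≤ k) (hω : ω ∈ DD T.V) (S : Finset Pt) (f : Pt → ℝ) {s ρ0 ρ3 : ℕ}
    (hsupp : ∀ x, f x ≠ 0 → x ∈ Ok T k ω ∧ dF (Ok T k ω) x ≤ s)
    (hfar : ∀ x, f x ≠ 0 → ρ3 < dF T.faceSet x)
    {M K B m0 : ℝ} (hK : 0 ≤ K) (hM : ∑ x ∈ S, |f x| ≤ M) (hB : ∀ x, |f x| ≤ B)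
    (hm0 : ∀ x, ∑ y ∈ box x ρ0, |f y| ≤ m0) :
    ∑ x ∈ S, ∑ y ∈ S, f x * f y * (Nk k ω x y : ℝ) ≤
      K * (M * m0) + K * (B ^ 2 * farCount T S ρ0 ρ3 (s + 1) ω) + tauN S K ω * M ^ 2 := by
  classical
  have hτ := tauN_nonneg S K ω
  have hM0 : 0 ≤ ∑ x ∈ S, |f x| := Finset.sum_nonneg (fun x _ => abs_nonneg _)
  have hpt : ∀ x ∈ S, ∀ y ∈ S, f x * f y * (Nk k ω x y : ℝ) ≤
      K * (|f x| * (if y ∈ box x ρ0 then |f y| else 0)) +
      K * (B ^ 2 * (if ρ0 < dn x y ∧ ρ3 < dF T.faceSet x ∧ ρ3 < dF T.faceSet y ∧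
        PairEv ω x y (s + 1) then (1 : ℝ) else 0)) +
      tauN S K ω * (|f x| * |f y|) := by
    intro x hx y hy
    have a1 : 0 ≤ K * (|f x| * (if y ∈ box x ρ0 then |f y| else 0)) := by
      split_ifs <;> positivity
    have a2 : 0 ≤ K * (B ^ 2 * (if ρ0 < dn x y ∧ ρ3 < dF T.faceSet x ∧ ρ3 < dF T.faceSet y ∧
        PairEv ω x y (s + 1) then (1 : ℝ) else 0)) := by
      split_ifs <;> positivity
    have a3 : 0 ≤ tauN S K ω * (|f x| * |f y|) := by positivity
    have h1 : f x * f y * (Nk k ω x y : ℝ) ≤ |f x| * |f y| * (Nk k ω x y : ℝ) := by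
      refine mul_le_mul_of_nonneg_right ?_ (by positivity)
      rw [← abs_mul]
      exact le_abs_self _
    by_cases hx0 : f x = 0
    · simp only [hx0, zero_mul, abs_zero] at a1 a3 ⊢
      linarith
    by_cases hy0 : f y = 0
    · simp only [hy0, zero_mul, mul_zero, abs_zero] at a1 a3 ⊢
      linarith
    by_cases hN : Nk k ω x y = 0
    · rw [hN]
      simp only [Nat.cast_zero, mul_zero]
      linarith
    have h3 : (Nk k ω x y : ℝ) ≤ K + tauN S K ω := by
      have h4 : (Nk k ω x y : ℝ) ≤ N ω x := by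
        exact_mod_cast Nk_le_N (hfin T.V ω hω) k x y
      exact h4.trans (N_le_tau hx hK)
    have h5 : f x * f y * (Nk k ω x y : ℝ) ≤ K * (|f x| * |f y|) +
        tauN S K ω * (|f x| * |f y|) := by
      refine h1.trans ?_
      calc |f x| * |f y| * (Nk k ω x y : ℝ) ≤ |f x| * |f y| * (K + tauN S K ω) :=
            mul_le_mul_of_nonneg_left h3 (by positivity)
        _ = _ := by ring
    by_cases hb : y ∈ box x ρ0
    · rw [if_pos hb] at a1 ⊢
      linarith
    · have hd : ρ0 < dn x y := by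
        by_contra hcon
        exact hb (dn_le_iff.1 (by omega))
      have hP : PairEv ω x y (s + 1) := by
        refine pairEv_of_Nk hst hin hfin hsame hR hk hω (hsupp x hx0).1 (hsupp x hx0).2
          (hsupp y hy0).2 hN
      have hc : ρ0 < dn x y ∧ ρ3 < dF T.faceSet x ∧ ρ3 < dF T.faceSet y ∧
        PairEv ω x y (s + 1) := ⟨hd, hfar x hx0, hfar y hy0, hP⟩
      rw [if_pos hc, if_neg hb, mul_zero, mul_zero, zero_add]
      have h6 : |f x| * |f y| ≤ B ^ 2 := by
        rw [sq]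
        exact mul_le_mul (hB x) (hB y) (abs_nonneg _) ((abs_nonneg _).trans (hB x))
      have h7 : K * (|f x| * |f y|) ≤ K * (B ^ 2 * 1) := by
        rw [mul_one]
        exact mul_le_mul_of_nonneg_left h6 hK
      linarith
  have hsum : ∑ x ∈ S, ∑ y ∈ S, f x * f y * (Nk k ω x y : ℝ) ≤
      K * (∑ x ∈ S, |f x| * ∑ y ∈ S, (if y ∈ box x ρ0 then |f y| else 0)) +
      K * (B ^ 2 * farCount T S ρ0 ρ3 (s + 1) ω) +
      tauN S K ω * (∑ x ∈ S, |f x|) ^ 2 := by
    refine (Finset.sum_le_sum (fun x hx => Finset.sum_le_sum (fun y hy => hpt x hx y hy))).trans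
      (le_of_eq ?_)
    unfold farCount
    rw [sq (∑ x ∈ S, |f x|), Finset.sum_mul_sum]
    simp only [Finset.mul_sum, ← Finset.sum_add_distrib]
  refine hsum.trans ?_
  have b1 : ∀ x, ∑ y ∈ S, (if y ∈ box x ρ0 then |f y| else 0) ≤ m0 := by
    intro x
    refine le_trans ?_ (hm0 x)
    rw [← Finset.sum_filter]
    refine Finset.sum_le_sum_of_subset_of_nonneg (fun y hy => ?_) (fun y _ _ => abs_nonneg _)
    exact (Finset.mem_filter.1 hy).2
  have b2 : ∑ x ∈ S, |f x| * ∑ y ∈ S, (if y ∈ box x ρ0 then |f y| else 0) ≤ M * m0 := by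
    have hm00 : 0 ≤ m0 := (Finset.sum_nonneg (fun y _ => abs_nonneg _)).trans (hm0 (0, 0))
    calc ∑ x ∈ S, |f x| * ∑ y ∈ S, (if y ∈ box x ρ0 then |f y| else 0)
        ≤ ∑ x ∈ S, |f x| * m0 :=
          Finset.sum_le_sum (fun x _ => mul_le_mul_of_nonneg_left (b1 x) (abs_nonneg _))
      _ = (∑ x ∈ S, |f x|) * m0 := by rw [Finset.sum_mul]
      _ ≤ M * m0 := mul_le_mul_of_nonneg_right hM hm00
  have h5 : (∑ x ∈ S, |f x|) ^ 2 ≤ M ^ 2 := pow_le_pow_left₀ hM0 hM 2
  gcongr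

end Pointwise

end Vale.Agent.P155.H12
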