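import Vale.Agent.P155.Skel

/-!
# P155, block H: expectations, tower property, first loop facts
-/

namespace Vale.Agent.P155.H12

open Finset Vale.Agent.P155 Vale.Agent.P155.Skel

/-! ## Expectations -/

section Ex

variable {V : Finset Pt}

theorem Ex_def (g : Conf → ℝ) : Ex V g = ((DD V).card : ℝ)⁻¹ * ∑ ω ∈ DD V, g ω := rfl

theorem Ex_congr {E : Type*} [AddCommMonoid E] [Module ℝ E] {g g' : Conf → E}
    (h : ∀ ω ∈ DD V, g ω = g' ω) : Ex V g = Ex V g' := by
  unfold Ex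
  rw [Finset.sum_congr rfl h]

theorem Ex_mono {g g' : Conf → ℝ} (h : ∀ ω ∈ DD V, g ω ≤ g' ω) : Ex V g ≤ Ex V g' := by
  rw [Ex_def, Ex_def]
  exact mul_le_mul_of_nonneg_left (Finset.sum_le_sum h) (by positivity)

theorem Ex_nonneg {g : Conf → ℝ} (h : ∀ ω ∈ DD V, 0 ≤ g ω) : 0 ≤ Ex V g := by
  rw [Ex_def]
  exact mul_nonneg (by positivity) (Finset.sum_nonneg h)

theorem Ex_add (g g' : Conf → ℝ) : Ex V (fun ω => g ω + g' ω) = Ex V g + Ex V g' := by
  simp only [Ex_def, Finset.sum_add_distrib, mul_add]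

theorem Ex_mul (a : ℝ) (g : Conf → ℝ) : Ex V (fun ω => a * g ω) = a * Ex V g := by
  simp only [Ex_def, ← Finset.mul_sum]
  ring

theorem Ex_sum {ι : Type*} (s : Finset ι) (g : ι → Conf → ℝ) :
    Ex V (fun ω => ∑ i ∈ s, g i ω) = ∑ i ∈ s, Ex V (g i) := by
  simp only [Ex_def]
  rw [Finset.sum_comm, Finset.mul_sum]

theorem Ex_const_le {g : Conf → ℝ} {c : ℝ} (hc : 0 ≤ c) (h : ∀ ω ∈ DD V, g ω ≤ c) :
    Ex V g ≤ c := by
  rw [Ex_def]
  have h1 : ∑ ω ∈ DD V, g ω ≤ (DD V).card * c := by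
    have := Finset.sum_le_card_nsmul (DD V) g c h
    simpa [nsmul_eq_mul] using this
  rcases Nat.eq_zero_or_pos (DD V).card with h0 | h0
  · simp [h0, hc]
  · have h2 : (0 : ℝ) < (DD V).card := by exact_mod_cast h0
    calc ((DD V).card : ℝ)⁻¹ * ∑ ω ∈ DD V, g ω ≤ ((DD V).card : ℝ)⁻¹ * ((DD V).card * c) :=
          mul_le_mul_of_nonneg_left h1 (by positivity)
      _ = c := by field_simp

theorem atom_facts {X : Expl} (hX : IsExpl V X) {ω ω' : Conf} (hω : ω ∈ DD V)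
    (h : ω' ∈ atom V X ω) :
    ω' ∈ DD V ∧ X ω' = X ω ∧ ω ∈ atom V X ω' ∧ atom V X ω' = atom V X ω := by
  classical
  unfold atom at h ⊢
  rw [Finset.mem_filter] at h
  obtain ⟨h1, h2⟩ := h
  have h3 : X ω' = X ω := hX.det ω hω ω' h1 h2
  have h4 : AgreeOff (X ω) ω' ω := ⟨fun v hv => (h2.1 v hv).symm, fun v hv => (h2.2 v hv).symm⟩
  refine ⟨h1, h3, ?_, ?_⟩
  · rw [Finset.mem_filter, h3]
    exact ⟨hω, h4⟩
  · ext η
    simp only [Finset.mem_filter, h3]
    constructor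
    · rintro ⟨h5, h6, h7⟩
      exact ⟨h5, fun v hv => (h6 v hv).trans (h2.1 v hv), fun v hv => (h7 v hv).trans (h2.2 v hv)⟩
    · rintro ⟨h5, h6, h7⟩
      exact ⟨h5, fun v hv => (h6 v hv).trans (h4.1 v hv), fun v hv => (h7 v hv).trans (h4.2 v hv)⟩

theorem self_mem_atom {X : Expl} {ω : Conf} (hω : ω ∈ DD V) : ω ∈ atom V X ω := by
  classical
  unfold atom
  rw [Finset.mem_filter]
  exact ⟨hω, fun v _ => rfl, fun v _ => rfl⟩

/-- The tower property. -/
theorem tower {E : Type*} [AddCommGroup E] [Module ℝ E] {X : Expl} (hX : IsExpl V X)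
    (g : Conf → E) : Ex V (cEx V X g) = Ex V g := by
  classical
  unfold Ex
  congr 1
  have h1 : ∀ ω ∈ DD V, cEx V X g ω =
      ∑ ω' ∈ DD V, if ω' ∈ atom V X ω then ((atom V X ω').card : ℝ)⁻¹ • g ω' else 0 := by
    intro ω hω
    unfold cEx
    rw [Finset.smul_sum, ← Finset.sum_filter]
    have h2 : (DD V).filter (fun ω' => ω' ∈ atom V X ω) = atom V X ω := by
      ext η
      simp only [Finset.mem_filter]
      exact ⟨fun h => h.2, fun h => ⟨(atom_facts hX hω h).1, h⟩⟩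
    rw [h2]
    refine Finset.sum_congr rfl (fun η hη => ?_)
    rw [(atom_facts hX hω hη).2.2.2]
  rw [Finset.sum_congr rfl h1, Finset.sum_comm]
  refine Finset.sum_congr rfl (fun ω' hω' => ?_)
  rw [← Finset.sum_filter]
  have h3 : (DD V).filter (fun ω => ω' ∈ atom V X ω) = atom V X ω' := by
    ext η
    simp only [Finset.mem_filter]
    exact ⟨fun h => (atom_facts hX h.1 h.2).2.2.1,
      fun h => ⟨(atom_facts hX hω' h).1, (atom_facts hX hω' h).2.2.1⟩⟩
  rw [h3, Finset.sum_const, ← Nat.cast_smul_eq_nsmul ℝ, smul_smul, mul_inv_cancel₀, one_smul]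
  have : 0 < (atom V X ω').card := Finset.card_pos.2 ⟨ω', self_mem_atom hω'⟩
  positivity

theorem cEx_congr {E : Type*} [AddCommMonoid E] [Module ℝ E] {X : Expl} {ω : Conf}
    {g g' : Conf → E} (h : ∀ ω' ∈ atom V X ω, g ω' = g' ω') : cEx V X g ω = cEx V X g' ω := by
  unfold cEx
  rw [Finset.sum_congr rfl h]

theorem cEx_sum {X : Expl} {ω : Conf} {ι : Type*} (s : Finset ι) (g : ι → Conf → ℝ) :
    cEx V X (fun ω => ∑ i ∈ s, g i ω) ω = ∑ i ∈ s, cEx V X (g i) ω := by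
  unfold cEx
  rw [Finset.sum_comm, Finset.smul_sum]

theorem cEx_mul {X : Expl} {ω : Conf} (a : ℝ) (g : Conf → ℝ) :
    cEx V X (fun ω => a * g ω) ω = a * cEx V X g ω := by
  unfold cEx
  rw [← Finset.mul_sum, smul_eq_mul, smul_eq_mul]
  ring

end Ex

/-! ## Levels -/

section Level

variable {V : Finset Pt} {ω : Conf}

theorem level_pos (hfin : (Loops ω).Finite) {L : Set Pt} (hL : L ∈ Loops ω) : 1 ≤ level ω L := by
  unfold level
  have h1 : ({L' | L' ∈ Loops ω ∧ ∀ f, surr ω L f → surr ω L' f}).Finite :=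
    hfin.subset (fun L' h => h.1)
  exact (Set.ncard_pos h1).2 ⟨L, hL, fun f hf => hf⟩

theorem level_le_N (hfin : (Loops ω).Finite) {L : Set Pt} {y : Pt}
    (hy : surr ω L y) : level ω L ≤ N ω y := by
  unfold level N
  exact Set.ncard_le_ncard (fun L' h => ⟨h.1, h.2 y hy⟩) (hfin.subset (fun L' h => h.1))

theorem Nk_le_N (hfin : (Loops ω).Finite) (k : ℕ) (x y : Pt) : Nk k ω x y ≤ N ω x := by
  unfold Nk N
  exact Set.ncard_le_ncard (fun L' h => ⟨h.1, h.2.2.1⟩) (hfin.subset (fun L' h => h.1))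

theorem hk_zero (hfin : (Loops ω).Finite) : hk 0 ω = fun _ => 0 := by
  funext f
  unfold hk
  have : {L | L ∈ Loops ω ∧ level ω L ≤ 0} = ∅ := by
    ext L
    simp only [Set.mem_ofPred_eq, Set.mem_empty_iff_false, iff_false, not_and]
    intro hL h0
    have := level_pos hfin hL
    omega
  rw [this]
  simp

theorem cEx_Fk_zero (g : Conf → ℝ) (hω : ω ∈ DD V) : cEx V (Fk V 0) g ω = Ex V g := by
  classical
  have h1 : atom V (Fk V 0) ω = DD V := by
    ext η
    unfold atom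
    simp only [Finset.mem_filter, and_iff_left_iff_imp]
    intro hη
    have h2 : Vk V 0 ω = (V : Set Pt) := by
      ext v
      simp [Vk]
    unfold DD at hω hη
    rw [Finset.mem_product] at hω hη
    obtain ⟨a1, a2⟩ := hω
    obtain ⟨b1, b2⟩ := hη
    rw [mem_PM] at a1 a2 b1 b2
    constructor
    · intro v hv
      simp only [Fk, h2, Finset.mem_coe] at hv
      rw [a1.off v hv, b1.off v hv]
    · intro v hv
      simp only [Fk, h2, Finset.mem_coe] at hv
      rw [a2.off v hv, b2.off v hv]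
  unfold cEx Ex
  rw [h1]

end Level

end Vale.Agent.P155.H12
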