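import Vale.Agent.P155.H12.Abs

/-!
# P155, block H: superpolynomial tail of the number of loops around a face
-/

namespace Vale.Agent.P155.H12

open Finset Vale.Agent.P155 Vale.Agent.P155.Skel

theorem one_add_le_sqrt {x : ℝ} (h0 : 0 ≤ x) (h8 : x ≤ 8) : 1 + x / 4 ≤ Real.sqrt (1 + x) := by
  apply Real.le_sqrt_of_sq_le
  nlinarith

theorem one_add_sq_le_cosh (t : ℝ) : 1 + t ^ 2 / 2 ≤ Real.cosh t := by
  have h : Real.cosh t = 1 + 2 * Real.sinh (t / 2) ^ 2 := by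
    have := Real.cosh_two_mul (t / 2)
    rw [show 2 * (t / 2) = t by ring] at this
    rw [this, Real.cosh_sq]
    ring
  have h2 : (t / 2) ^ 2 ≤ Real.sinh (t / 2) ^ 2 := by
    rw [sq_le_sq]
    rcases le_total 0 t with ht | ht
    · have h3 : t / 2 ≤ Real.sinh (t / 2) := Real.self_le_sinh_iff.2 (by linarith)
      rw [abs_of_nonneg (by linarith : 0 ≤ t / 2), abs_of_nonneg (by linarith)]
      exact h3
    · have h3 : Real.sinh (t / 2) ≤ t / 2 := Real.sinh_le_self_iff.2 (by linarith)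
      rw [abs_of_nonpos (by linarith : t / 2 ≤ 0), abs_of_nonpos (by linarith)]
      linarith
  rw [h]
  nlinarith

/-- `N 1_{N > K} ≤ (cosh t)^N * (8/t²) e^{-K t²/16}` for `0 < t ≤ 1`. -/
theorem N_tail {t K : ℝ} (ht0 : 0 < t) (ht1 : t ≤ 1) (n : ℕ) (hn : K < n) :
    (n : ℝ) ≤ Real.cosh t ^ n * (8 / t ^ 2 * Real.exp (-(K * t ^ 2 / 16))) := by
  set b := 1 + t ^ 2 / 8 with hb
  have ht2 : t ^ 2 ≤ 1 := by nlinarith
  have ht2' : 0 < t ^ 2 := by positivity
  have hb1 : 1 ≤ b := by rw [hb]; linarith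
  have h1 : b ^ 2 ≤ Real.cosh t := by
    have := one_add_sq_le_cosh t
    rw [hb]
    nlinarith
  have h2 : (n : ℝ) * (t ^ 2 / 8) ≤ b ^ n := by
    have := one_add_mul_le_pow (a := t ^ 2 / 8) (by linarith) n
    rw [← hb] at this
    linarith
  have h3 : Real.exp (K * t ^ 2 / 16) ≤ b ^ n := by
    have h4 : t ^ 2 / 16 ≤ Real.log b := by
      have h5 := Real.one_sub_inv_le_log_of_pos (show (0 : ℝ) < b by linarith)
      refine le_trans ?_ h5
      have h6 : b⁻¹ ≤ 1 - t ^ 2 / 16 := by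
        rw [inv_le_iff_one_le_mul₀ (by linarith)]
        rw [hb]
        nlinarith
      linarith
    calc Real.exp (K * t ^ 2 / 16) ≤ Real.exp ((n : ℝ) * Real.log b) := by
          apply Real.exp_le_exp.2
          have h7 : K * (t ^ 2 / 16) ≤ n * Real.log b :=
            mul_le_mul hn.le h4 (by positivity) (by positivity)
          linarith
      _ = b ^ n := by
          rw [mul_comm, Real.exp_mul, Real.exp_log (by linarith), Real.rpow_natCast]
  have h5 : (n : ℝ) * (t ^ 2 / 8) * Real.exp (K * t ^ 2 / 16) ≤ Real.cosh t ^ n := by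
    calc (n : ℝ) * (t ^ 2 / 8) * Real.exp (K * t ^ 2 / 16) ≤ b ^ n * b ^ n :=
          mul_le_mul h2 h3 (Real.exp_pos _).le (by positivity)
      _ = (b ^ 2) ^ n := by rw [← pow_add, ← pow_mul]; congr 1; ring
      _ ≤ Real.cosh t ^ n := pow_le_pow_left₀ (by positivity) h1 n
  rw [Real.exp_neg]
  have h6 : 0 < Real.exp (K * t ^ 2 / 16) := Real.exp_pos _
  calc (n : ℝ) = (n : ℝ) * (t ^ 2 / 8) * Real.exp (K * t ^ 2 / 16) *
        (8 / t ^ 2 * (Real.exp (K * t ^ 2 / 16))⁻¹) := by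
        field_simp
    _ ≤ _ := mul_le_mul_of_nonneg_right h5 (by positivity)

theorem Ex_tail (hcosh : L_cosh) {T : Temp} {S : Finset Pt} {t K C : ℝ} (ht0 : 0 < t)
    (ht1 : t ≤ 1) (hC : ∀ x, Ex T.V (fun ω => Real.cosh (t * (h ω x : ℝ))) ≤ C) :
    Ex T.V (tauN S K) ≤ S.card * (C * (8 / t ^ 2 * Real.exp (-(K * t ^ 2 / 16)))) := by
  classical
  unfold tauN
  rw [Ex_sum]
  calc ∑ x ∈ S, Ex T.V (fun ω => if K < (N ω x : ℝ) then (N ω x : ℝ) else 0)
      ≤ ∑ x ∈ S, C * (8 / t ^ 2 * Real.exp (-(K * t ^ 2 / 16))) := by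
        refine Finset.sum_le_sum (fun x _ => ?_)
        calc Ex T.V (fun ω => if K < (N ω x : ℝ) then (N ω x : ℝ) else 0)
            ≤ Ex T.V (fun ω => (8 / t ^ 2 * Real.exp (-(K * t ^ 2 / 16))) *
                Real.cosh t ^ N ω x) := by
              refine Ex_mono (fun ω _ => ?_)
              have h1 : 0 < Real.cosh t := Real.cosh_pos t
              split_ifs with hlt
              · rw [mul_comm]
                exact N_tail ht0 ht1 _ hlt
              · positivity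
          _ = (8 / t ^ 2 * Real.exp (-(K * t ^ 2 / 16))) *
                Ex T.V (fun ω => Real.cosh (t * (h ω x : ℝ))) := by
              rw [Ex_mul, hcosh T x t]
          _ ≤ (8 / t ^ 2 * Real.exp (-(K * t ^ 2 / 16))) * C :=
              mul_le_mul_of_nonneg_left (hC x) (by positivity)
          _ = _ := by ring
    _ = _ := by rw [Finset.sum_const, nsmul_eq_mul]

/-- `e^{-y} ≤ n!/y^n`. -/
theorem exp_neg_le {y : ℝ} (hy : 0 < y) (n : ℕ) : Real.exp (-y) ≤ n.factorial / y ^ n := by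
  rw [Real.exp_neg, inv_le_comm₀ (Real.exp_pos _) (by positivity), inv_div]
  exact Real.pow_div_factorial_le_exp y hy.le n

theorem log_sq_le {ε : ℝ} (hε : 0 < ε) : ∃ A : ℝ, 0 < A ∧ ∀ R : ℕ, 1 ≤ R →
    Real.log (R + 2) ^ 2 ≤ A * (R : ℝ) ^ ε := by
  refine ⟨(3 ^ (ε / 2) / (ε / 2)) ^ 2, by positivity, fun R hR => ?_⟩
  have hR1 : (1 : ℝ) ≤ R := by exact_mod_cast hR
  have h1 : Real.log (R + 2) ≤ 3 ^ (ε / 2) / (ε / 2) * (R : ℝ) ^ (ε / 2) := by
    have h2 := Real.log_le_rpow_div (x := (R : ℝ) + 2) (by positivity) (ε := ε / 2) (by positivity)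
    refine h2.trans ?_
    have h3 : ((R : ℝ) + 2) ^ (ε / 2) ≤ (3 * (R : ℝ)) ^ (ε / 2) :=
      Real.rpow_le_rpow (by positivity) (by linarith) (by positivity)
    rw [Real.mul_rpow (by norm_num) (by positivity)] at h3
    calc ((R : ℝ) + 2) ^ (ε / 2) / (ε / 2) ≤ (3 ^ (ε / 2) * (R : ℝ) ^ (ε / 2)) / (ε / 2) := by
          gcongr
      _ = _ := by ring
  have h0 : 0 ≤ Real.log (R + 2) := Real.log_nonneg (by linarith)
  calc Real.log (R + 2) ^ 2 ≤ (3 ^ (ε / 2) / (ε / 2) * (R : ℝ) ^ (ε / 2)) ^ 2 :=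
        pow_le_pow_left₀ h0 h1 2
    _ = (3 ^ (ε / 2) / (ε / 2)) ^ 2 * (R : ℝ) ^ ε := by
        rw [mul_pow]
        congr 1
        rw [← Real.rpow_natCast ((R : ℝ) ^ (ε / 2)) 2, ← Real.rpow_mul (by positivity)]
        congr 1
        push_cast
        ring

/-- **Tail of the number of loops.** -/
theorem tau_small (hcosh : L_cosh) (hheight : C_height) {ε : ℝ} (hε : 0 < ε) (p : ℝ) :
    ∃ C : ℝ, 0 ≤ C ∧ ∀ (R : ℕ) (T : Temp), 1 ≤ R → Fits T R →
      Ex T.V (tauN (box (0, 0) R) ((R : ℝ) ^ ε)) ≤ C * (R : ℝ) ^ (-p) := by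
  obtain ⟨c, hc, C, hC⟩ := hheight
  obtain ⟨A, hA, hlog⟩ := log_sq_le (ε := ε / 2) (by positivity)
  set c' := min c 1 with hc'
  have hc'0 : 0 < c' := lt_min hc one_pos
  -- number of factors
  obtain ⟨n, hn⟩ := exists_nat_gt ((p + 2 + ε / 2) / (ε / 2))
  have hn' : p + 2 + ε / 2 ≤ n * (ε / 2) := by
    rw [div_lt_iff₀ (by positivity)] at hn
    exact hn.le
  set C' := max C 0 with hC'
  set y0 := c' ^ 2 / (16 * A) with hy0
  have hy0' : 0 < y0 := by positivity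
  refine ⟨9 * (C' * (8 * A / c' ^ 2 * (n.factorial / y0 ^ n))), by positivity, ?_⟩
  intro R T hR hfit
  have hR1 : (1 : ℝ) ≤ R := by exact_mod_cast hR
  have hlog1 : 1 ≤ Real.log (R + 2) := by
    rw [Real.le_log_iff_exp_le (by positivity)]
    have := Real.exp_one_lt_d9
    linarith
  set t := c' / Real.log (R + 2) with ht
  have ht0 : 0 < t := by positivity
  have ht1 : t ≤ 1 := by
    rw [ht, div_le_one (by positivity)]
    exact (min_le_right _ _).trans hlog1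
  have hCt : ∀ x, Ex T.V (fun ω => Real.cosh (t * (h ω x : ℝ))) ≤ C' := by
    intro x
    refine le_trans (Ex_mono (fun ω _ => ?_)) ((hC R T hfit x).trans (le_max_left _ _))
    rw [← Real.cosh_abs (t * (h ω x : ℝ)), ← Real.cosh_abs (c / Real.log (R + 2) * (h ω x : ℝ))]
    rw [Real.cosh_le_cosh, abs_abs, abs_abs, abs_mul, abs_mul]
    refine mul_le_mul_of_nonneg_right ?_ (abs_nonneg _)
    rw [abs_of_pos ht0, abs_of_pos (by positivity), ht]
    gcongr
    exact min_le_left _ _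
  have h1 := Ex_tail hcosh (S := box (0, 0) R) ht0 ht1 (K := (R : ℝ) ^ ε) hCt
  refine h1.trans ?_
  have hcard : ((box (0, 0) R).card : ℝ) ≤ 9 * (R : ℝ) ^ 2 := by
    have : (box (0, 0) R).card = (2 * R + 1) ^ 2 := by
      unfold box
      rw [Finset.card_product, Int.card_Icc, sq]
      congr 1 <;> (simp only [zero_sub]; omega)
    rw [this]
    push_cast
    nlinarith
  have hL := hlog R hR
  have ht2 : 8 / t ^ 2 ≤ 8 * A / c' ^ 2 * (R : ℝ) ^ (ε / 2) := by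
    rw [ht, div_pow, div_div_eq_mul_div]
    calc 8 * Real.log (R + 2) ^ 2 / c' ^ 2 ≤ 8 * (A * (R : ℝ) ^ (ε / 2)) / c' ^ 2 := by gcongr
      _ = _ := by ring
  have hRR : (R : ℝ) ^ ε = (R : ℝ) ^ (ε / 2) * (R : ℝ) ^ (ε / 2) := by
    rw [← Real.rpow_add (by linarith)]
    congr 1
    ring
  have hy : y0 * (R : ℝ) ^ (ε / 2) ≤ (R : ℝ) ^ ε * t ^ 2 / 16 := by
    rw [hRR, ht, div_pow, hy0]
    have hl2 : 0 < Real.log (R + 2) ^ 2 := by positivity
    have hRp : 0 < (R : ℝ) ^ (ε / 2) := by positivity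
    rw [div_mul_eq_mul_div, div_le_iff₀ (by positivity)]
    have h5 : 1 ≤ A * (R : ℝ) ^ (ε / 2) / Real.log (R + 2) ^ 2 := by
      rw [one_le_div hl2]
      exact hL
    calc c' ^ 2 * (R : ℝ) ^ (ε / 2) = c' ^ 2 * (R : ℝ) ^ (ε / 2) * 1 := by ring
      _ ≤ c' ^ 2 * (R : ℝ) ^ (ε / 2) * (A * (R : ℝ) ^ (ε / 2) / Real.log (R + 2) ^ 2) := by
          gcongr
      _ = _ := by
          field_simp
  have hexp : Real.exp (-((R : ℝ) ^ ε * t ^ 2 / 16)) ≤
      n.factorial / y0 ^ n * ((R : ℝ) ^ (ε / 2 * n))⁻¹ := by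
    calc Real.exp (-((R : ℝ) ^ ε * t ^ 2 / 16)) ≤ Real.exp (-(y0 * (R : ℝ) ^ (ε / 2))) :=
          Real.exp_le_exp.2 (by linarith)
      _ ≤ n.factorial / (y0 * (R : ℝ) ^ (ε / 2)) ^ n := exp_neg_le (by positivity) n
      _ = _ := by
          rw [mul_pow, Real.rpow_mul (by positivity), Real.rpow_natCast]
          field_simp
  have hexpo : (R : ℝ) ^ 2 * (R : ℝ) ^ (ε / 2) * ((R : ℝ) ^ (ε / 2 * n))⁻¹ ≤ (R : ℝ) ^ (-p) := by
    rw [← Real.rpow_natCast (R : ℝ) 2, ← Real.rpow_neg (by positivity),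
      ← Real.rpow_add (by linarith), ← Real.rpow_add (by linarith)]
    apply Real.rpow_le_rpow_of_exponent_le hR1
    push_cast
    linarith
  have hC'0 : 0 ≤ C' := le_max_right _ _
  calc ((box (0, 0) R).card : ℝ) *
        (C' * (8 / t ^ 2 * Real.exp (-((R : ℝ) ^ ε * t ^ 2 / 16))))
      ≤ (9 * (R : ℝ) ^ 2) * (C' * ((8 * A / c' ^ 2 * (R : ℝ) ^ (ε / 2)) *
          (n.factorial / y0 ^ n * ((R : ℝ) ^ (ε / 2 * n))⁻¹))) := by
        gcongr
    _ = 9 * (C' * (8 * A / c' ^ 2 * (n.factorial / y0 ^ n))) *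
          ((R : ℝ) ^ 2 * (R : ℝ) ^ (ε / 2) * ((R : ℝ) ^ (ε / 2 * n))⁻¹) := by ring
    _ ≤ _ := by
        gcongr

end Vale.Agent.P155.H12
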