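import Vale.Agent.P155.H12.Inputs
import Vale.Agent.P155.H12.MassBd
import Vale.Agent.P155.H12.Tail

/-!
# P155, block H: the layer lemma for the layer function `fL`
-/

namespace Vale.Agent.P155.H12

open Finset Vale.Agent.P155 Vale.Agent.P155.Skel Vale.Agent.P155.G45 Vale.Agent.P155.J

/-- BLOCK I, input of block H: the truncated potential carries no field. -/
def I_min : Prop := ∀ η > (0 : ℝ), ∃ c > (0 : ℝ), ∀ C0 : ℝ, ∃ C : ℝ,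
  ∀ (R : ℕ) (T : Temp) (Φ uD : Pt → ℝ) (lam : ℝ), 1 ≤ R → Fits T R →
  (∀ y, 0 ≤ Φ y ∧ Φ y ≤ C0 / (R : ℝ) ^ 2) → (∀ y, Φ y ≠ 0 → (R : ℝ) ≤ C0 * dF T.faceSet y) →
  IsGreen T.faceSet Φ uD → 0 ≤ lam → lam ≤ C0 * (R : ℝ) ^ (-η) →
  Ex T.V (fun ω => (hf ω (fun x => lap (fun y => min (uD y) lam) x)) ^ 2) ≤ C * (R : ℝ) ^ (-c)

open Classical in
/-- the comparison function near the boundary of the polygon -/
noncomputable def g3 (T : Temp) (v : Pt → ℝ) (lam : ℝ) : Pt → ℝ := fun x =>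
  if x ∈ T.faceSet then - lap (fun y => min (v y) lam) x else 0

theorem hf_g3 {T : Temp} {v : Pt → ℝ} {lam : ℝ} {ω : Conf} (hω : ω ∈ DD T.V) :
    (hf ω (g3 T v lam)) ^ 2 = (hf ω (fun x => lap (fun y => min (v y) lam) x)) ^ 2 := by
  classical
  have h1 : hf ω (g3 T v lam) = - hf ω (fun x => lap (fun y => min (v y) lam) x) := by
    unfold hf
    rw [← finsum_neg_distrib]
    refine finsum_congr (fun x => ?_)
    unfold g3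
    split_ifs with hx
    · ring
    · rw [h_off hω hx]
      simp
  rw [h1, neg_sq]

theorem massIn_g3 {T : Temp} {R : ℕ} (hR : Fits T R) (hD : T.faceSet.Finite) {v : Pt → ℝ}
    {lam : ℝ} (ω : Conf) (l : Set Pt) {A : Set Pt} (hA : A = {x | surr ω l x}) :
    massIn (box (0, 0) R) ω l (g3 T v lam) = ∑ x ∈ hD.toFinset,
      (by classical exact if x ∈ A then - lap (fun y => min (v y) lam) x else 0) := by
  classical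
  unfold massIn g3
  have hsub : hD.toFinset ⊆ box (0, 0) R := by
    intro x hx
    rw [Set.Finite.mem_toFinset] at hx
    exact hR hx
  rw [← Finset.sum_subset hsub]
  · refine Finset.sum_congr rfl (fun x hx => ?_)
    rw [Set.Finite.mem_toFinset] at hx
    rw [if_pos hx, hA]
    rfl
  · intro x _ hx
    rw [Set.Finite.mem_toFinset] at hx
    rw [if_neg hx]
    split_ifs <;> rfl

/-- The layer lemma for `fL` at fixed scales. -/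
theorem core {T : Temp} {R k : ℕ} (hfit : Fits T R) (hk : 1 ≤ k)
    {C0 M γ K0 K V3 pE τ : ℝ} (hM0 : 0 ≤ M)
    (hmass : ∀ (O : Set Pt) (s : ℕ) (χ φ u : Pt → ℝ),
      O ⊆ (box (0, 0) R : Set Pt) → CPr O → 1 ≤ s → IsCut O s C0 χ → IsGreen O φ u →
      (∀ y, |φ y| ≤ C0 / (R : ℝ) ^ 2) →
      ∑ x ∈ box (0, 0) R, |fL O φ χ u x| ≤ M ∧
      (∀ (p : Pt) (ρ : ℕ), s ≤ ρ → ρ ≤ R →
        ∑ x ∈ box p ρ, |fL O φ χ u x| ≤ M * ((ρ : ℝ) / R) ^ γ))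
    (φ : Pt → ℝ) (hφ : ∀ y, |φ y| ≤ C0 / (R : ℝ) ^ 2)
    (u χ : Conf → Pt → ℝ) {s ρ : ℕ} (hs : 1 ≤ s) (hsρ : s ≤ ρ) (hρR : ρ ≤ R)
    (hu : ∀ ω ∈ DD T.V, IsGreen (Ok T k ω) φ (u ω))
    (hχ : ∀ ω ∈ DD T.V, IsCut (Ok T k ω) s C0 (χ ω))
    (hK : 0 ≤ K) {ρ3 : ℕ} {g : Pt → ℝ}
    (hnear : ∀ ω ∈ DD T.V, ∀ ω' ∈ atom T.V (Fk T.V k) ω, ∀ l ∈ Loops ω', level ω' l = k →
      massIn (box (0, 0) R) ω' l
        (fun x => |fnear T ρ3 (fL (Ok T k ω) φ (χ ω) (u ω)) x|) ≤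
        K0 * massIn (box (0, 0) R) ω' l g)
    (hg : ∀ x, x ∉ box (0, 0) R → g x = 0)
    (hV3 : Ex T.V (fun ω => (hf ω g) ^ 2) ≤ V3) (hp0 : 0 ≤ pE)
    (hpE : ∀ x y, ρ < dn x y → ρ3 < dF T.faceSet x → ρ3 < dF T.faceSet y →
      Pr T.V (fun ω => PairEv ω x y (2 * s + 1)) ≤ pE)
    (hτ : Ex T.V (tauN (box (0, 0) R) K) ≤ τ) :
    Ex T.V (fun ω => cEx T.V (Fk T.V k)
      (fun ω' => (hkf k ω' (fL (Ok T k ω) φ (χ ω) (u ω))) ^ 2) ω) ≤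
      2 * (K * (K0 ^ 2 * V3) + τ * M ^ 2) +
      2 * (K * (M * (M * ((ρ : ℝ) / R) ^ γ)) + K * ((M * ((s : ℝ) / R) ^ γ) ^ 2 *
        (((box (0, 0) R).card : ℝ) ^ 2 * pE)) + τ * M ^ 2) := by
  classical
  have hne : ∀ ω : Conf, ∃ q, q ∉ Ok T k ω := fun ω => exists_not_mem_Ok hfit k ω
  have hall : ∀ ω ∈ DD T.V, _ := fun ω hω => hmass (Ok T k ω) s (χ ω) φ (u ω)
    ((Ok_sub T k ω).trans hfit) (L.l_cp T k ω hω) hs (hχ ω hω) (hu ω hω) hφ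
  have hmain := layer_abs L.l_expl (HT.l_cov L.l_expl) L.l_hk l_step l_in l_finite L.l_same
    hfit hk (fun ω => fL (Ok T k ω) φ (χ ω) (u ω)) g (s := 2 * s) (ρ0 := ρ) (ρ3 := ρ3) (M := M)
    (K := K) (B := M * ((s : ℝ) / R) ^ γ) (m0 := M * ((ρ : ℝ) / R) ^ γ) (Cn := K0) (V3 := V3)
    (pE := pE) (τ := τ)
    (fun ω hω x hx => fL_supp (hne ω) hs (hχ ω hω) (hu ω hω) hx) hK
    (fun ω hω => (hall ω hω).1)
    (fun ω hω x => by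
      refine le_trans ?_ ((hall ω hω).2 x s le_rfl (hsρ.trans hρR))
      refine Finset.single_le_sum (f := fun x => |fL (Ok T k ω) φ (χ ω) (u ω) x|)
        (fun y _ => abs_nonneg _) ?_
      rw [G45.mem_box, G45.dn_self]
      omega)
    (fun ω hω x => (hall ω hω).2 x ρ hsρ hρR) hM0 (by positivity) hnear hg hV3 hp0 hpE hτ
  exact hmain

/-- Choice of scales. -/
theorem scales {e a Cp CF : ℝ} (he : 0 < e) (he8 : e ≤ 1 / 8) (ha8 : a ≤ 1 / 8)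
    (hCp : 0 ≤ Cp) (hCF : 0 ≤ CF) : ∃ R0 : ℕ, 1 ≤ R0 ∧ ∀ R : ℕ, R0 ≤ R →
      ⌈(R : ℝ) ^ a⌉₊ ≤ ⌊(R : ℝ) ^ (1 - e)⌋₊ ∧ ⌊(R : ℝ) ^ (1 - e)⌋₊ ≤ R ∧
      Cp * ((⌊(R : ℝ) ^ (1 - e)⌋₊ : ℝ) + ⌈(R : ℝ) ^ a⌉₊) < R ∧
      CF * (2 * (⌈(R : ℝ) ^ a⌉₊ : ℝ) + 1) ^ 3 ≤ (⌊(R : ℝ) ^ (1 - e)⌋₊ : ℝ) + 1 := by
  have t1 : Filter.Tendsto (fun n : ℕ => (n : ℝ) ^ e) Filter.atTop Filter.atTop :=
    (tendsto_rpow_atTop he).comp tendsto_natCast_atTop_atTop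
  have t2 : Filter.Tendsto (fun n : ℕ => (n : ℝ) ^ (1 / 2 : ℝ)) Filter.atTop Filter.atTop :=
    (tendsto_rpow_atTop (by norm_num)).comp tendsto_natCast_atTop_atTop
  have h := ((t1.eventually_gt_atTop (3 * Cp + 3)).and
    (t2.eventually_gt_atTop (125 * CF + 3))).and (Filter.eventually_ge_atTop 1)
  obtain ⟨R0, hR0⟩ := Filter.eventually_atTop.1 h
  refine ⟨max R0 1, le_max_right _ _, fun R hR => ?_⟩
  obtain ⟨⟨h1, h2⟩, h3⟩ := hR0 R ((le_max_left _ _).trans hR)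
  have hR1 : (1 : ℝ) ≤ R := by exact_mod_cast h3
  have hR0' : (0 : ℝ) < R := by linarith
  set A := (R : ℝ) ^ (1 / 8 : ℝ) with hA
  have hA1 : 1 ≤ A := Real.one_le_rpow hR1 (by norm_num)
  have hs : (⌈(R : ℝ) ^ a⌉₊ : ℝ) ≤ 2 * A := by
    have h4 : (R : ℝ) ^ a ≤ A := Real.rpow_le_rpow_of_exponent_le hR1 ha8
    have h5 := (Nat.ceil_lt_add_one (show (0 : ℝ) ≤ (R : ℝ) ^ a by positivity)).le
    linarith
  have hρ1 : (R : ℝ) ^ (1 - e) < (⌊(R : ℝ) ^ (1 - e)⌋₊ : ℝ) + 1 := Nat.lt_floor_add_one _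
  have hρ2 : (⌊(R : ℝ) ^ (1 - e)⌋₊ : ℝ) ≤ (R : ℝ) ^ (1 - e) := Nat.floor_le (by positivity)
  have h78 : (R : ℝ) ^ (7 / 8 : ℝ) ≤ (R : ℝ) ^ (1 - e) :=
    Real.rpow_le_rpow_of_exponent_le hR1 (by linarith)
  have e1 : A ^ 3 * (R : ℝ) ^ (1 / 2 : ℝ) = (R : ℝ) ^ (7 / 8 : ℝ) := by
    rw [hA, ← Real.rpow_natCast, ← Real.rpow_mul hR0'.le, ← Real.rpow_add hR0']
    norm_num
  have e2 : (R : ℝ) ^ e * (R : ℝ) ^ (1 - e) = R := by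
    rw [← Real.rpow_add hR0']
    norm_num
  have hA3 : A ≤ A ^ 3 := by nlinarith [mul_nonneg (by linarith : (0 : ℝ) ≤ A - 1) (by positivity : 0 ≤ A)]
  have hA30 : 0 < A ^ 3 := by positivity
  refine ⟨?_, ?_, ?_, ?_⟩
  · have : (⌈(R : ℝ) ^ a⌉₊ : ℝ) < (⌊(R : ℝ) ^ (1 - e)⌋₊ : ℝ) + 1 := by
      have h5 : 2 * A < (R : ℝ) ^ (7 / 8 : ℝ) := by
        rw [← e1]
        nlinarith
      linarith
    have h6 : ⌈(R : ℝ) ^ a⌉₊ < ⌊(R : ℝ) ^ (1 - e)⌋₊ + 1 := by exact_mod_cast this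
    omega
  · have : (⌊(R : ℝ) ^ (1 - e)⌋₊ : ℝ) ≤ R := by
      refine hρ2.trans ?_
      calc (R : ℝ) ^ (1 - e) ≤ (R : ℝ) ^ (1 : ℝ) :=
            Real.rpow_le_rpow_of_exponent_le hR1 (by linarith)
        _ = R := Real.rpow_one _
    exact_mod_cast this
  · have hAe : A ≤ (R : ℝ) ^ (1 - e) := Real.rpow_le_rpow_of_exponent_le hR1 (by linarith)
    have hpos : 0 < (R : ℝ) ^ (1 - e) := by positivity
    calc Cp * ((⌊(R : ℝ) ^ (1 - e)⌋₊ : ℝ) + ⌈(R : ℝ) ^ a⌉₊)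
        ≤ Cp * ((R : ℝ) ^ (1 - e) + 2 * (R : ℝ) ^ (1 - e)) := by
          apply mul_le_mul_of_nonneg_left _ hCp
          linarith
      _ = 3 * Cp * (R : ℝ) ^ (1 - e) := by ring
      _ < (R : ℝ) ^ e * (R : ℝ) ^ (1 - e) := by
          apply mul_lt_mul_of_pos_right _ hpos
          linarith
      _ = R := e2
  · have h6 : 2 * (⌈(R : ℝ) ^ a⌉₊ : ℝ) + 1 ≤ 5 * A := by linarith
    calc CF * (2 * (⌈(R : ℝ) ^ a⌉₊ : ℝ) + 1) ^ 3 ≤ CF * (5 * A) ^ 3 := by gcongr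
      _ = 125 * CF * A ^ 3 := by ring
      _ ≤ (R : ℝ) ^ (1 / 2 : ℝ) * A ^ 3 := by
          apply mul_le_mul_of_nonneg_right _ hA30.le
          linarith
      _ = (R : ℝ) ^ (7 / 8 : ℝ) := by rw [← e1]; ring
      _ ≤ _ := by linarith

end Vale.Agent.P155.H12
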