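import Vale.Agent.P155.H12.Cross

/-!
# P155, block H: second moments as sums over loops
-/

namespace Vale.Agent.P155.H12

open Finset Vale.Agent.P155 Vale.Agent.P155.Skel

theorem hkf_eq_sum {k : ℕ} {ω : Conf} {f : Pt → ℝ} {S : Finset Pt} (hS : ∀ x, x ∉ S → f x = 0) :
    hkf k ω f = ∑ x ∈ S, f x * ((h ω x : ℝ) - (hk k ω x : ℝ)) := by
  unfold hkf
  apply finsum_eq_sum_of_support_subset
  intro x hx
  by_contra hxS
  exact hx (by simp [hS x hxS])

theorem hf_eq_sum {ω : Conf} {f : Pt → ℝ} {S : Finset Pt} (hS : ∀ x, x ∉ S → f x = 0) :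
    hf ω f = ∑ x ∈ S, f x * (h ω x : ℝ) := by
  unfold hf
  apply finsum_eq_sum_of_support_subset
  intro x hx
  by_contra hxS
  exact hx (by simp [hS x hxS])

theorem hf_eq_hkf (hfin : L_finite) {V : Finset Pt} {ω : Conf} (hω : ω ∈ DD V) (f : Pt → ℝ) :
    hf ω f = hkf 0 ω f := by
  unfold hf hkf
  rw [hk_zero (hfin V ω hω)]
  simp

/-- Comparison of a double average with an average. -/
theorem Ex_cEx_le {V : Finset Pt} {X : Expl} (hX : IsExpl V X) {g : Conf → Conf → ℝ}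
    {G : Conf → ℝ} (h : ∀ ω ∈ DD V, ∀ ω' ∈ atom V X ω, g ω ω' ≤ G ω') :
    Ex V (fun ω => cEx V X (g ω) ω) ≤ Ex V G := by
  rw [← tower hX G]
  refine Ex_mono (fun ω hω => ?_)
  unfold cEx
  rw [smul_eq_mul, smul_eq_mul]
  exact mul_le_mul_of_nonneg_left (Finset.sum_le_sum (fun ω' hω' => h ω hω ω' hω'))
    (by positivity)

/-- The conditional second moment of a linear statistic of the inner heights. -/
theorem cond_sq (hcov : L_cov) (T : Temp) (k : ℕ) (S : Finset Pt) {ω : Conf} (hω : ω ∈ DD T.V)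
    (f : Pt → ℝ) (hsupp : ∀ x, x ∉ S → f x = 0) :
    cEx T.V (Fk T.V k) (fun ω' => (hkf k ω' f) ^ 2) ω =
      cEx T.V (Fk T.V k) (fun ω' => ∑ x ∈ S, ∑ y ∈ S, f x * f y * (Nk k ω' x y : ℝ)) ω := by
  classical
  have e1 : cEx T.V (Fk T.V k) (fun ω' => (hkf k ω' f) ^ 2) ω =
      cEx T.V (Fk T.V k) (fun ω' => ∑ x ∈ S, ∑ y ∈ S, (f x * f y) *
        (((h ω' x : ℝ) - hk k ω' x) * ((h ω' y : ℝ) - hk k ω' y))) ω := by
    refine cEx_congr (fun ω' hω' => ?_)
    rw [hkf_eq_sum hsupp, sq, Finset.sum_mul_sum]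
    refine Finset.sum_congr rfl (fun x _ => Finset.sum_congr rfl (fun y _ => ?_))
    ring
  rw [e1]
  rw [cEx_sum, cEx_sum]
  refine Finset.sum_congr rfl (fun x _ => ?_)
  rw [cEx_sum, cEx_sum]
  refine Finset.sum_congr rfl (fun y _ => ?_)
  rw [cEx_mul, cEx_mul, hcov T k ω hω x y]

open Classical in
/-- `Nk` as a sum over loops -/
theorem Nk_eq_sum {ω : Conf} (hfin : (Loops ω).Finite) (k : ℕ) (x y : Pt) :
    (Nk k ω x y : ℝ) = ∑ L ∈ hfin.toFinset.filter (fun L => k < level ω L),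
      (if surr ω L x then (1 : ℝ) else 0) * (if surr ω L y then (1 : ℝ) else 0) := by
  have h1 : {L | L ∈ Loops ω ∧ k < level ω L ∧ surr ω L x ∧ surr ω L y} =
      (((hfin.toFinset.filter (fun L => k < level ω L)).filter
        (fun L => surr ω L x ∧ surr ω L y) : Finset (Set Pt)) : Set (Set Pt)) := by
    ext L
    simp only [Set.mem_ofPred_eq, Finset.coe_filter, Set.Finite.mem_toFinset, Finset.mem_filter,
      and_assoc]
  unfold Nk
  rw [h1, Set.ncard_coe_finset, Finset.card_filter]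
  push_cast
  refine Finset.sum_congr rfl (fun L _ => ?_)
  by_cases a : surr ω L x <;> by_cases b : surr ω L y <;> simp [a, b]

open Classical in
/-- mass of a function inside a loop -/
noncomputable def massIn (S : Finset Pt) (ω : Conf) (L : Set Pt) (g : Pt → ℝ) : ℝ :=
  ∑ x ∈ S, if surr ω L x then g x else 0

open Classical in
theorem sum_Nk_eq {ω : Conf} (hfin : (Loops ω).Finite) (k : ℕ) (S : Finset Pt) (g : Pt → ℝ) :
    ∑ x ∈ S, ∑ y ∈ S, g x * g y * (Nk k ω x y : ℝ) =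
      ∑ L ∈ hfin.toFinset.filter (fun L => k < level ω L), (massIn S ω L g) ^ 2 := by
  have h1 : ∀ L : Set Pt, (massIn S ω L g) ^ 2 = ∑ x ∈ S, ∑ y ∈ S,
      g x * g y * ((if surr ω L x then (1 : ℝ) else 0) * (if surr ω L y then (1 : ℝ) else 0)) := by
    intro L
    unfold massIn
    rw [sq, Finset.sum_mul_sum]
    refine Finset.sum_congr rfl (fun x _ => Finset.sum_congr rfl (fun y _ => ?_))
    by_cases a : surr ω L x <;> by_cases b : surr ω L y <;> simp [a, b]
  simp only [h1]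
  rw [Finset.sum_comm]
  rw [Finset.sum_comm (s := hfin.toFinset.filter (fun L => k < level ω L))]
  rw [Finset.sum_comm (s := S)]
  refine Finset.sum_congr rfl (fun x _ => ?_)
  rw [Finset.sum_comm (s := hfin.toFinset.filter (fun L => k < level ω L))]
  refine Finset.sum_congr rfl (fun y _ => ?_)
  rw [Nk_eq_sum hfin, Finset.mul_sum]

/-- second moment of the height against a deterministic function: all loops -/
theorem loops_sq (hexp : L_expl) (hcov : L_cov) (hfin : L_finite) (T : Temp) (S : Finset Pt)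
    (g : Pt → ℝ) (hg : ∀ x, x ∉ S → g x = 0) :
    Ex T.V (fun ω => (hf ω g) ^ 2) =
      Ex T.V (fun ω => ∑ x ∈ S, ∑ y ∈ S, g x * g y * (Nk 0 ω x y : ℝ)) := by
  rw [← tower (hexp T 0) (fun ω => (hf ω g) ^ 2),
    ← tower (hexp T 0) (fun ω => ∑ x ∈ S, ∑ y ∈ S, g x * g y * (Nk 0 ω x y : ℝ))]
  refine Ex_congr (fun ω hω => ?_)
  rw [← cond_sq hcov T 0 S hω g hg]
  refine cEx_congr (fun ω' hω' => ?_)
  rw [hf_eq_hkf hfin (atom_facts (hexp T 0) hω hω').1]

end Vale.Agent.P155.H12
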