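import Vale.Agent.P155.H12.Basic

/-!
# P155, block H: crossing a loop along a lattice path; the pair event
-/

namespace Vale.Agent.P155.H12

open Finset Vale.Agent.P155 Vale.Agent.P155.Skel

/-- Crossing an edge of the dual lattice changes `surr` only at a point of the loop. -/
def L_step : Prop := ∀ (V : Finset Pt), ∀ ω ∈ DD V, ∀ L ∈ Loops ω, ∀ f g : Pt, Adj f g →
  surr ω L f → ¬ surr ω L g → ∃ v ∈ L, v ∈ box f 1

/-- Faces surrounded by a loop lie in the polygon. -/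
def L_in : Prop := ∀ (T : Temp), ∀ ω ∈ DD T.V, ∀ L ∈ Loops ω, ∀ f, surr ω L f → f ∈ T.faceSet

/-- Finitely many loops. -/
def L_finite : Prop := ∀ (V : Finset Pt), ∀ ω ∈ DD V, (Loops ω).Finite

theorem mem_box {x y : Pt} {r : ℕ} :
    y ∈ box x r ↔ (x.1 - r ≤ y.1 ∧ y.1 ≤ x.1 + r) ∧ (x.2 - r ≤ y.2 ∧ y.2 ≤ x.2 + r) := by
  unfold box
  rw [Finset.mem_product, Finset.mem_Icc, Finset.mem_Icc]

theorem dn_le_iff {x y : Pt} {r : ℕ} : dn x y ≤ r ↔ y ∈ box x r := by
  rw [mem_box]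
  unfold dn dinf
  rcases abs_cases (x.1 - y.1) with ⟨h1, _⟩ | ⟨h1, _⟩ <;>
    rcases abs_cases (x.2 - y.2) with ⟨h2, _⟩ | ⟨h2, _⟩ <;> omega

theorem dn_comm (x y : Pt) : dn x y = dn y x := by
  unfold dn dinf
  rw [abs_sub_comm x.1, abs_sub_comm x.2]

theorem dn_triangle (x y z : Pt) : dn x z ≤ dn x y + dn y z := by
  unfold dn dinf
  have h1 := abs_sub_le x.1 y.1 z.1
  have h2 := abs_sub_le x.2 y.2 z.2
  have h3 := abs_nonneg (x.1 - y.1)
  have h4 := abs_nonneg (y.1 - z.1)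
  omega

/-- A property on an integer interval which is stable under steps. -/
theorem int_step (P : ℤ → Prop) (c r : ℤ)
    (h : ∀ i, c - r ≤ i → i < c + r → (P i ↔ P (i + 1))) :
    ∀ i, c - r ≤ i → i ≤ c + r → (P c ↔ P i) := by
  intro i h1 h2
  have hr : 0 ≤ r := by omega
  have key : ∀ n : ℕ, (n : ℤ) ≤ 2 * r → (P (c - r) ↔ P (c - r + n)) := by
    intro n
    induction n with
    | zero => intro _; simp
    | succ n ih =>
      intro hn
      push_cast at hn ⊢
      rw [ih (by omega), h (c - r + n) (by omega) (by omega), add_assoc]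
  have k1 := key (i - (c - r)).toNat (by omega)
  have k2 := key r.toNat (by omega)
  rw [show c - r + ((i - (c - r)).toNat : ℤ) = i by omega] at k1
  rw [show c - r + (r.toNat : ℤ) = c by omega] at k2
  exact k2.symm.trans k1

theorem box_trans {x f v : Pt} {r : ℕ} (h : f ∈ box x r) (h' : v ∈ box f 1) :
    v ∈ box x (r + 1) := by
  rw [mem_box] at *
  push_cast at *
  omega

/-- If a loop does not meet the box of radius `r + 1` then `surr` is constant on the box of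
radius `r`. -/
theorem surr_const (hst : L_step) {V : Finset Pt} {ω : Conf} (hω : ω ∈ DD V) {L : Set Pt}
    (hL : L ∈ Loops ω) (x : Pt) (r : ℕ) (hno : ∀ v ∈ L, v ∉ box x (r + 1)) (y : Pt)
    (hy : y ∈ box x r) : surr ω L x ↔ surr ω L y := by
  have hstep : ∀ f g : Pt, Adj f g → f ∈ box x r → g ∈ box x r →
      (surr ω L f ↔ surr ω L g) := by
    intro f g hfg hf hg
    constructor
    · intro h
      by_contra h'
      obtain ⟨v, hv, hv'⟩ := hst V ω hω L hL f g hfg h h'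
      exact hno v hv (box_trans hf hv')
    · intro h
      by_contra h'
      have hgf : Adj g f := by
        unfold Adj at hfg ⊢
        rw [abs_sub_comm g.1, abs_sub_comm g.2]
        exact hfg
      obtain ⟨v, hv, hv'⟩ := hst V ω hω L hL g f hgf h h'
      exact hno v hv (box_trans hg hv')
  rw [mem_box] at hy
  have h1 : surr ω L (x.1, x.2) ↔ surr ω L (y.1, x.2) := by
    refine int_step (fun i => surr ω L (i, x.2)) x.1 r ?_ y.1 (by omega) (by omega)
    intro i hi hi'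
    refine hstep _ _ ?_ ?_ ?_
    · unfold Adj
      simp
    · rw [mem_box]; simp only; omega
    · rw [mem_box]; simp only; omega
  have h2 : surr ω L (y.1, x.2) ↔ surr ω L (y.1, y.2) := by
    refine int_step (fun i => surr ω L (y.1, i)) x.2 r ?_ y.2 (by omega) (by omega)
    intro i hi hi'
    refine hstep _ _ ?_ ?_ ?_
    · unfold Adj
      simp
    · rw [mem_box]; simp only; omega
    · rw [mem_box]; simp only; omega
  exact h1.trans h2

theorem exists_mem_box (hst : L_step) {V : Finset Pt} {ω : Conf} (hω : ω ∈ DD V) {L : Set Pt}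
    (hL : L ∈ Loops ω) {x y : Pt} (hx : surr ω L x) (hy : ¬ surr ω L y) {r : ℕ}
    (hr : dn x y ≤ r) : ∃ v ∈ L, v ∈ box x (r + 1) := by
  by_contra hcon
  push Not at hcon
  exact hy ((surr_const hst hω hL x r hcon y (dn_le_iff.1 hr)).1 hx)

/-- Two distinct loops both meeting the boxes around `q` and `q'`. -/
def PairEv (ω : Conf) (q q' : Pt) (s : ℕ) : Prop :=
  ∃ L ∈ Loops ω, ∃ L' ∈ Loops ω, L ≠ L' ∧
    (∃ v ∈ L, v ∈ box q s) ∧ (∃ v ∈ L, v ∈ box q' s) ∧
    (∃ v ∈ L', v ∈ box q s) ∧ (∃ v ∈ L', v ∈ box q' s)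

theorem dF_spec {O : Set Pt} {x : Pt} (h : ∃ y, y ∉ O) : ∃ y, y ∉ O ∧ dn x y ≤ dF O x := by
  obtain ⟨y, hy⟩ := h
  have : ({r : ℕ | ∃ y, y ∉ O ∧ dn x y ≤ r}).Nonempty := ⟨dn x y, y, hy, le_refl _⟩
  exact Nat.sInf_mem this

theorem dF_le {O : Set Pt} {x y : Pt} (hy : y ∉ O) : dF O x ≤ dn x y :=
  Nat.sInf_le ⟨y, hy, le_refl _⟩

/-- the faces in the polygon are finitely many, so there is a face off `Ok` -/
theorem exists_not_mem_Ok {T : Temp} {R : ℕ} (hR : Fits T R) (k : ℕ) (ω : Conf) :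
    ∃ y, y ∉ Ok T k ω := by
  refine ⟨((R : ℤ) + 1, 0), fun h => ?_⟩
  have := hR h.1
  rw [Finset.mem_coe, mem_box] at this
  simp at this

/-- The geometric input of the layer lemma. -/
theorem pairEv_of_Nk (hst : L_step) (hin : L_in) (hfin : L_finite) (hsame : L_same)
    {T : Temp} {R k : ℕ} (hR : Fits T R) (hk : 1 ≤ k) {ω : Conf} (hω : ω ∈ DD T.V) {x y : Pt}
    {s : ℕ} (hx : x ∈ Ok T k ω) (hxs : dF (Ok T k ω) x ≤ s) (hys : dF (Ok T k ω) y ≤ s)
    (hN : Nk k ω x y ≠ 0) : PairEv ω x y (s + 1) := by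
  have hne : ({L | L ∈ Loops ω ∧ k < level ω L ∧ surr ω L x ∧ surr ω L y}).Nonempty := by
    by_contra h
    rw [Set.not_nonempty_iff_eq_empty] at h
    apply hN
    unfold Nk
    rw [h, Set.ncard_empty]
  obtain ⟨L, hL, hkL, hLx, hLy⟩ := hne
  obtain ⟨l, hl, hlk, hlx, hl'⟩ := hsame T k hk ω hω x hx
  obtain ⟨hsub, hneq⟩ := hl' L hL hkL hLx
  have off : ∀ z, dF (Ok T k ω) z ≤ s → ∃ z', dn z z' ≤ s ∧ ¬ surr ω l z' ∧ ¬ surr ω L z' := by
    intro z hz
    obtain ⟨z', h1, h2⟩ := dF_spec (x := z) (exists_not_mem_Ok hR k ω)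
    have h3 : ¬ surr ω l z' := by
      intro h
      apply h1
      refine ⟨hin T ω hω l hl z' h, ?_⟩
      rw [← hlk]
      exact level_le_N (hfin T.V ω hω) h
    exact ⟨z', h2.trans hz, h3, fun h => h3 (hsub z' h)⟩
  obtain ⟨x', hx1, hx2, hx3⟩ := off x hxs
  obtain ⟨y', hy1, hy2, hy3⟩ := off y hys
  exact ⟨L, hL, l, hl, hneq, exists_mem_box hst hω hL hLx hx3 hx1,
    exists_mem_box hst hω hL hLy hy3 hy1, exists_mem_box hst hω hl hlx hx2 hx1,
    exists_mem_box hst hω hl (hsub y hLy) hy2 hy1⟩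

/-- two points under a common deeper loop lie under a common loop of level `k` -/
theorem common_level (hsame : L_same) {T : Temp} {k : ℕ} (hk : 1 ≤ k) {ω : Conf}
    (hω : ω ∈ DD T.V) {x y : Pt} (hx : x ∈ Ok T k ω) (hN : Nk k ω x y ≠ 0) :
    ∃ l ∈ Loops ω, level ω l = k ∧ surr ω l x ∧ surr ω l y := by
  have hne : ({L | L ∈ Loops ω ∧ k < level ω L ∧ surr ω L x ∧ surr ω L y}).Nonempty := by
    by_contra h
    rw [Set.not_nonempty_iff_eq_empty] at h
    apply hN
    unfold Nk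
    rw [h, Set.ncard_empty]
  obtain ⟨L, hL, hkL, hLx, hLy⟩ := hne
  obtain ⟨l, hl, hlk, hlx, hl'⟩ := hsame T k hk ω hω x hx
  exact ⟨l, hl, hlk, hlx, (hl' L hL hkL hLx).1 y hLy⟩

end Vale.Agent.P155.H12
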