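import Vale.Agent.P155.G45.Harnack
import Vale.Agent.P155.G.Diff
import Vale.Agent.P155.J.Iface

/-!
# P155, block H: pointwise bounds for the layer function
-/

namespace Vale.Agent.P155.H12

open Finset Vale.Agent.P155 Vale.Agent.P155.G45 Vale.Agent.P155.J

theorem dinf_eq_dn (x y : Pt) : dinf x y = (dn x y : ℤ) := by
  unfold dn dinf
  rw [Int.toNat_of_nonneg]
  exact le_trans (abs_nonneg _) (le_max_left _ _)

/-- Discrete product rule. -/
theorem lap_mul (χ u : Pt → ℝ) (x : Pt) : lap (fun y => χ y * u y) x =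
    χ x * lap u x + u x * lap χ x +
      ((χ (x.1 + 1, x.2) - χ x) * (u (x.1 + 1, x.2) - u x) +
       (χ (x.1 - 1, x.2) - χ x) * (u (x.1 - 1, x.2) - u x) +
       (χ (x.1, x.2 + 1) - χ x) * (u (x.1, x.2 + 1) - u x) +
       (χ (x.1, x.2 - 1) - χ x) * (u (x.1, x.2 - 1) - u x)) := by
  unfold lap
  ring

variable {O : Set Pt} {s : ℕ} {C0 : ℝ} {χ φ u : Pt → ℝ}

theorem cut_C0_nonneg (h : IsCut O s C0 χ) : 0 ≤ C0 := by
  have := h.diff 0 0 (by norm_num) (0, 0)
  simp at this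
  exact (abs_nonneg _).trans this

theorem cut_grad (h : IsCut O s C0 χ) (x : Pt) :
    |χ (x.1 + 1, x.2) - χ x| ≤ C0 / s ∧ |χ (x.1 - 1, x.2) - χ x| ≤ C0 / s ∧
    |χ (x.1, x.2 + 1) - χ x| ≤ C0 / s ∧ |χ (x.1, x.2 - 1) - χ x| ≤ C0 / s := by
  have h1 := h.diff 1 0 (by norm_num)
  have h2 := h.diff 0 1 (by norm_num)
  simp only [Function.iterate_one, Function.iterate_zero, id, pow_one, add_zero, zero_add,
    ← div_eq_mul_inv] at h1 h2
  have a1 := h1 x
  have a2 := h1 (x.1 - 1, x.2)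
  have a3 := h2 x
  have a4 := h2 (x.1, x.2 - 1)
  unfold Dx at a1 a2
  unfold Dy at a3 a4
  simp only [sub_add_cancel] at a2 a4
  rw [abs_sub_comm] at a2 a4
  exact ⟨a1, a2, a3, a4⟩

theorem cut_lap (h : IsCut O s C0 χ) (x : Pt) : |lap χ x| ≤ 2 * C0 / s ^ 2 := by
  have h1 := h.diff 2 0 (by norm_num) (x.1 - 1, x.2)
  have h2 := h.diff 0 2 (by norm_num) (x.1, x.2 - 1)
  simp only [Function.iterate_zero, id, add_zero, zero_add, inv_pow] at h1 h2
  have e1 : (Dx^[2] χ) (x.1 - 1, x.2) = χ (x.1 + 1, x.2) - χ x - (χ x - χ (x.1 - 1, x.2)) := by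
    simp only [Function.iterate_succ, Function.iterate_zero, Function.comp, id, Dx,
      sub_add_cancel]
  have e2 : (Dy^[2] χ) (x.1, x.2 - 1) = χ (x.1, x.2 + 1) - χ x - (χ x - χ (x.1, x.2 - 1)) := by
    simp only [Function.iterate_succ, Function.iterate_zero, Function.comp, id, Dy,
      sub_add_cancel]
  rw [e1, ← div_eq_mul_inv] at h1
  rw [e2, ← div_eq_mul_inv] at h2
  have e3 : lap χ x = (χ (x.1 + 1, x.2) - χ x - (χ x - χ (x.1 - 1, x.2))) +
      (χ (x.1, x.2 + 1) - χ x - (χ x - χ (x.1, x.2 - 1))) := by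
    unfold lap
    ring
  rw [e3]
  calc _ ≤ |χ (x.1 + 1, x.2) - χ x - (χ x - χ (x.1 - 1, x.2))| +
        |χ (x.1, x.2 + 1) - χ x - (χ x - χ (x.1, x.2 - 1))| := abs_add_le _ _
    _ ≤ C0 / s ^ 2 + C0 / s ^ 2 := add_le_add h1 h2
    _ = _ := by ring

theorem dF_adj (hO : ∃ q, q ∉ O) {x y : Pt} (h : dn x y ≤ 1) :
    dF O y ≤ dF O x + 1 ∧ dF O x ≤ dF O y + 1 := by
  have h1 := dF_lip hO y x
  have h2 := dF_lip hO x y
  rw [dn_comm] at h1
  omega

/-- Support of the layer function. -/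
theorem fL_supp (hO : ∃ q, q ∉ O) (hs : 1 ≤ s) (hχ : IsCut O s C0 χ) (hu : IsGreen O φ u)
    {x : Pt} (h : fL O φ χ u x ≠ 0) : x ∈ O ∧ dF O x ≤ 2 * s := by
  classical
  have hn : ∀ y, dn x y ≤ 1 → dF O x < s → χ y = 0 := by
    intro y hy h1
    apply hχ.zero
    have := (dF_adj hO hy).1
    omega
  by_cases hx : x ∈ O
  · refine ⟨hx, ?_⟩
    by_contra hcon
    apply h
    have h1 : ∀ y, dn x y ≤ 1 → χ y = 1 := by
      intro y hy
      apply hχ.one
      have := (dF_adj hO hy).2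
      omega
    unfold fL
    rw [if_pos hx, lap_congr (v := u) (fun y hy => by rw [h1 y hy, one_mul])]
    linarith [hu.eq x hx]
  · exfalso
    apply h
    have h0 : dF O x = 0 := dF_of_notMem hx
    unfold fL
    rw [if_neg hx, lap_congr (v := fun _ => 0) (fun y hy => by
      rw [hn y hy (by omega), zero_mul]), lap_const]
    norm_num

/-- Below the layer. -/
theorem fL_below (hO : ∃ q, q ∉ O) (hχ : IsCut O s C0 χ) {x : Pt} (hx : x ∈ O)
    (h : dF O x < s) : fL O φ χ u x = φ x := by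
  classical
  unfold fL
  rw [if_pos hx, lap_congr (v := fun _ => 0) (fun y hy => by
    rw [hχ.zero y (by have := (dF_adj hO hy).1; omega), zero_mul]), lap_const, add_zero]

/-- The algebraic part of the bound. -/
theorem fL_alg {x : Pt} (hx : x ∈ O) (hu : IsGreen O φ u) (hχ : IsCut O s C0 χ) {g b P : ℝ}
    (hb : |u x| ≤ b) (hP : |φ x| ≤ P) (hg1 : |u (x.1 + 1, x.2) - u x| ≤ g)
    (hg2 : |u (x.1 - 1, x.2) - u x| ≤ g) (hg3 : |u (x.1, x.2 + 1) - u x| ≤ g)
    (hg4 : |u (x.1, x.2 - 1) - u x| ≤ g) :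
    |fL O φ χ u x| ≤ P + b * (2 * C0 / s ^ 2) + 4 * (C0 / s * g) := by
  classical
  have hC0 := cut_C0_nonneg hχ
  obtain ⟨c1, c2, c3, c4⟩ := cut_grad hχ x
  have cl := cut_lap hχ x
  unfold fL
  rw [if_pos hx, lap_mul]
  have e : φ x + (χ x * lap u x + u x * lap χ x +
      ((χ (x.1 + 1, x.2) - χ x) * (u (x.1 + 1, x.2) - u x) +
       (χ (x.1 - 1, x.2) - χ x) * (u (x.1 - 1, x.2) - u x) +
       (χ (x.1, x.2 + 1) - χ x) * (u (x.1, x.2 + 1) - u x) +
       (χ (x.1, x.2 - 1) - χ x) * (u (x.1, x.2 - 1) - u x))) =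
      (1 - χ x) * φ x + u x * lap χ x +
      ((χ (x.1 + 1, x.2) - χ x) * (u (x.1 + 1, x.2) - u x) +
       (χ (x.1 - 1, x.2) - χ x) * (u (x.1 - 1, x.2) - u x) +
       (χ (x.1, x.2 + 1) - χ x) * (u (x.1, x.2 + 1) - u x) +
       (χ (x.1, x.2 - 1) - χ x) * (u (x.1, x.2 - 1) - u x)) := by
    rw [← hu.eq x hx]
    ring
  rw [e]
  have m1 : ∀ p q : ℝ, |p| ≤ C0 / s → |q| ≤ g → |p * q| ≤ C0 / s * g := by
    intro p q hp hq
    rw [abs_mul]
    exact mul_le_mul hp hq (abs_nonneg _) (by positivity)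
  have t1 : |(1 - χ x) * φ x| ≤ P := by
    rw [abs_mul]
    have h1 : |1 - χ x| ≤ 1 := by
      rw [abs_le]
      constructor <;> linarith [hχ.nonneg x, hχ.le_one x]
    calc |1 - χ x| * |φ x| ≤ 1 * P := mul_le_mul h1 hP (abs_nonneg _) zero_le_one
      _ = P := one_mul _
  have t2 : |u x * lap χ x| ≤ b * (2 * C0 / s ^ 2) := by
    rw [abs_mul]
    exact mul_le_mul hb cl (abs_nonneg _) ((abs_nonneg _).trans hb)
  have t3 := m1 _ _ c1 hg1
  have t4 := m1 _ _ c2 hg2
  have t5 := m1 _ _ c3 hg3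
  have t6 := m1 _ _ c4 hg4
  rw [abs_le] at t1 t2 t3 t4 t5 t6 ⊢
  constructor <;> linarith [t1.1, t1.2, t2.1, t2.2, t3.1, t3.2, t4.1, t4.2, t5.1, t5.2, t6.1,
    t6.2]

/-- **Pointwise bound of the layer function**, with a dominating function of constant local
Laplacian. -/
theorem fL_bound {C β : ℝ} (hβ : 0 < β) (hC : 0 ≤ C) (hSD : SupDecay C β) :
    ∃ A : ℝ, 1 ≤ A ∧ ∀ (O : Set Pt) (s : ℕ) (C0 : ℝ) (χ φ u ub : Pt → ℝ) (c : ℝ) (x : Pt),
      (∃ q, q ∉ O) → 1 ≤ s → IsCut O s C0 χ → IsGreen O φ u → s ≤ dF O x → 0 ≤ c →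
      (∀ y, |u y| ≤ ub y) → (∀ y, dn x y < s → - lap ub y = c) →
      (∀ y, dn x y < s → |φ y| ≤ c) →
      |fL O φ χ u x| ≤ 100 * A * (C0 + 1) * (ub x / s ^ 2 + c) := by
  obtain ⟨A, hA, hH⟩ := harnack_one hβ hC hSD
  refine ⟨A, hA, ?_⟩
  intro O s C0 χ φ u ub c x hO hs hχ hu hxs hc hub hlap hφ
  have hC0 := cut_C0_nonneg hχ
  have hxO : x ∈ O := mem_of_dF_pos (by omega)
  have hub0 : ∀ y, 0 ≤ ub y := fun y => (abs_nonneg _).trans (hub y)
  have hs1 : (1 : ℝ) ≤ s := by exact_mod_cast hs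
  have hs0 : (0 : ℝ) < s := by linarith
  have hφx : |φ x| ≤ c := hφ x (by rw [dn_self]; omega)
  rcases Nat.lt_or_ge s 4 with h4 | h4
  · -- small scale
    have hs4 : (s : ℝ) ≤ 4 := by exact_mod_cast h4.le
    have hx0 := hlap x (by rw [dn_self]; omega)
    unfold lap at hx0
    have p1 := hub0 (x.1 + 1, x.2)
    have p2 := hub0 (x.1 - 1, x.2)
    have p3 := hub0 (x.1, x.2 + 1)
    have p4 := hub0 (x.1, x.2 - 1)
    have q1 := abs_le.1 (hub (x.1 + 1, x.2))
    have q2 := abs_le.1 (hub (x.1 - 1, x.2))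
    have q3 := abs_le.1 (hub (x.1, x.2 + 1))
    have q4 := abs_le.1 (hub (x.1, x.2 - 1))
    have q0 := abs_le.1 (hub x)
    have h1 := fL_alg (g := 5 * ub x) hxO hu hχ (hub x) hφx
      (by rw [abs_le]; constructor <;> linarith [q1.1, q1.2, q0.1, q0.2])
      (by rw [abs_le]; constructor <;> linarith [q2.1, q2.2, q0.1, q0.2])
      (by rw [abs_le]; constructor <;> linarith [q3.1, q3.2, q0.1, q0.2])
      (by rw [abs_le]; constructor <;> linarith [q4.1, q4.2, q0.1, q0.2])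
    refine h1.trans ?_
    have h2 : C0 / s * (5 * ub x) ≤ 20 * C0 * (ub x / s ^ 2) := by
      rw [div_mul_eq_mul_div, div_le_iff₀ hs0]
      calc C0 * (5 * ub x) = 5 * C0 * ub x := by ring
        _ ≤ 20 * C0 * ub x / s := by
            rw [le_div_iff₀ hs0]
            have : 0 ≤ C0 * ub x := mul_nonneg hC0 (hub0 x)
            nlinarith
        _ = 20 * C0 * (ub x / s ^ 2) * s := by
            field_simp
    have h3 : ub x * (2 * C0 / s ^ 2) = 2 * C0 * (ub x / s ^ 2) := by ring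
    rw [h3]
    have h5 : 0 ≤ ub x / s ^ 2 := div_nonneg (hub0 x) (by positivity)
    have h6 : 0 ≤ C0 * (ub x / s ^ 2) := mul_nonneg hC0 h5
    have h7 : c + 82 * (C0 * (ub x / s ^ 2)) ≤ 100 * (C0 + 1) * (ub x / s ^ 2 + c) := by
      nlinarith [mul_nonneg hC0 hc]
    have h8 : 100 * (C0 + 1) * (ub x / s ^ 2 + c) ≤ 100 * A * (C0 + 1) * (ub x / s ^ 2 + c) := by
      have : 0 ≤ 100 * (C0 + 1) * (ub x / s ^ 2 + c) := by positivity
      nlinarith
    linarith
  · -- large scale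
    set n := s / 4 with hn
    have hn1 : 1 ≤ n := by omega
    have hn8 : (s : ℝ) / 8 ≤ n := by
      have : s ≤ 8 * n := by omega
      have h' : (s : ℝ) ≤ 8 * n := by exact_mod_cast this
      linarith
    have hM : ∀ y, dn x y ≤ n + 1 → |u y| ≤ A * ub x := by
      intro y hy
      refine (hub y).trans (hH x (n + 1) c ub hc (fun z _ => hub0 z) (fun z hz => hlap z ?_) y x
        hy (by rw [dn_self]; omega))
      omega
    have hlapu : ∀ y, dn x y < s → |lap u y| ≤ c := by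
      intro y hy
      have hyO : y ∈ O := mem_of_lt_dF (x := x) (by omega)
      have := hu.eq y hyO
      have h2 : lap u y = - φ y := by linarith
      rw [h2, abs_neg]
      exact hφ y hy
    have hgr : ∀ z, dn x z ≤ 1 → |Dx u z| ≤ 16 * A * ub x / s + s * c ∧
        |Dy u z| ≤ 16 * A * ub x / s + s * c := by
      intro z hz
      have hbound : 2 * (A * ub x) / n + n * c ≤ 16 * A * ub x / s + s * c := by
        have hn0 : (0 : ℝ) < n := by exact_mod_cast hn1
        have hns : (n : ℝ) ≤ s := by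
          have : n ≤ s := by omega
          exact_mod_cast this
        have hA0 : 0 ≤ A * ub x := mul_nonneg (by linarith) (hub0 x)
        have h1 : 2 * (A * ub x) / n ≤ 16 * A * ub x / s := by
          rw [div_le_div_iff₀ hn0 hs0]
          nlinarith
        have h2 : (n : ℝ) * c ≤ s * c := mul_le_mul_of_nonneg_right hns hc
        linarith
      have hd1 : ∀ y, dinf z y ≤ (n : ℤ) → |u y| ≤ A * ub x := by
        intro y hy
        rw [dinf_eq_dn] at hy
        apply hM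
        have := dn_tri x z y
        omega
      have hd2 : ∀ y, dinf z y < (n : ℤ) → |lap u y| ≤ c := by
        intro y hy
        rw [dinf_eq_dn] at hy
        apply hlapu
        have := dn_tri x z y
        omega
      exact ⟨(G.grad_Dx u z n hn1 _ c hd1 hd2).trans hbound,
        (G.grad_Dy u z n hn1 _ c hd1 hd2).trans hbound⟩
    have g1 := (hgr x (by rw [dn_self]; omega)).1
    have g2 := (hgr (x.1 - 1, x.2) (dn_left x).le).1
    have g3 := (hgr x (by rw [dn_self]; omega)).2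
    have g4 := (hgr (x.1, x.2 - 1) (dn_down x).le).2
    unfold Dx at g1 g2
    unfold Dy at g3 g4
    simp only [sub_add_cancel] at g2 g4
    rw [abs_sub_comm] at g2 g4
    have h1 := fL_alg hxO hu hχ (hub x) hφx g1 g2 g3 g4
    refine h1.trans ?_
    have e1 : 4 * (C0 / s * (16 * A * ub x / s + s * c)) = 64 * A * C0 * (ub x / s ^ 2) +
        4 * C0 * c := by
      field_simp
      ring
    rw [e1]
    have h3 : ub x * (2 * C0 / s ^ 2) = 2 * C0 * (ub x / s ^ 2) := by ring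
    rw [h3]
    set v := ub x / (s : ℝ) ^ 2 with hv
    have h5 : 0 ≤ v := div_nonneg (hub0 x) (by positivity)
    have h6 : 0 ≤ C0 * v := mul_nonneg hC0 h5
    have h7 : 0 ≤ C0 * c := mul_nonneg hC0 hc
    have h8 : 0 ≤ (A - 1) * (C0 * v) := mul_nonneg (by linarith) h6
    have h9 : 0 ≤ (A - 1) * (C0 * c) := mul_nonneg (by linarith) h7
    have h10 : 0 ≤ (A - 1) * v := mul_nonneg (by linarith) h5
    have h11 : 0 ≤ (A - 1) * c := mul_nonneg (by linarith) hc
    nlinarith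

end Vale.Agent.P155.H12
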