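import Vale.Agent.P155.H12.Abs

/-!
# P155, block H: the layer lemma with explicit error terms, expectation form
-/

namespace Vale.Agent.P155.H12

open Finset Vale.Agent.P155 Vale.Agent.P155.Skel

theorem Pr_def (V : Finset Pt) (p : Conf → Prop) [DecidablePred p] :
    Pr V p = Ex V (fun ω => if p ω then (1 : ℝ) else 0) := by
  unfold Pr
  refine Ex_congr (fun ω _ => ?_)
  by_cases h : p ω
  · rw [if_pos h, Set.indicator_of_mem (by exact h)]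
  · rw [if_neg h, Set.indicator_of_notMem (by exact h)]

theorem Pr_nonneg (V : Finset Pt) (p : Conf → Prop) : 0 ≤ Pr V p := by
  classical
  rw [Pr_def]
  refine Ex_nonneg (fun ω _ => ?_)
  split_ifs <;> simp

theorem farCount_le {T : Temp} (S : Finset Pt) {ρ0 ρ3 s : ℕ} {pE : ℝ} (hp0 : 0 ≤ pE)
    (hpE : ∀ x y, ρ0 < dn x y → ρ3 < dF T.faceSet x → ρ3 < dF T.faceSet y →
      Pr T.V (fun ω => PairEv ω x y s) ≤ pE) :
    Ex T.V (farCount T S ρ0 ρ3 s) ≤ (S.card : ℝ) ^ 2 * pE := by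
  classical
  unfold farCount
  rw [Ex_sum]
  calc ∑ x ∈ S, Ex T.V (fun ω => ∑ y ∈ S, if ρ0 < dn x y ∧ ρ3 < dF T.faceSet x ∧
        ρ3 < dF T.faceSet y ∧ PairEv ω x y s then (1 : ℝ) else 0)
      ≤ ∑ x ∈ S, ∑ y ∈ S, pE := by
        refine Finset.sum_le_sum (fun x _ => ?_)
        rw [Ex_sum]
        refine Finset.sum_le_sum (fun y _ => ?_)
        by_cases h : ρ0 < dn x y ∧ ρ3 < dF T.faceSet x ∧ ρ3 < dF T.faceSet y
        · have h1 := hpE x y h.1 h.2.1 h.2.2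
          rw [Pr_def] at h1
          refine le_trans (Ex_mono (fun ω _ => ?_)) h1
          by_cases h2 : PairEv ω x y s
          · simp [h2, h.1, h.2.1, h.2.2]
          · simp [h2]
        · refine le_trans (le_of_eq ?_) hp0
          have : (fun ω : Conf => if ρ0 < dn x y ∧ ρ3 < dF T.faceSet x ∧
              ρ3 < dF T.faceSet y ∧ PairEv ω x y s then (1 : ℝ) else 0) = fun _ => 0 := by
            funext ω
            rw [if_neg]
            tauto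
          rw [this]
          simp [Ex]
    _ = (S.card : ℝ) ^ 2 * pE := by
        simp only [Finset.sum_const, nsmul_eq_mul]
        ring

theorem tau_bound_nonneg {T : Temp} {S : Finset Pt} {K τ : ℝ}
    (hτ : Ex T.V (tauN S K) ≤ τ) : 0 ≤ τ :=
  le_trans (Ex_nonneg (fun ω _ => tauN_nonneg S K ω)) hτ

/-- near part in expectation -/
theorem near_expect (hexp : L_expl) (hcov : L_cov) (hfin : L_finite) (hsame : L_same)
    {T : Temp} {k : ℕ} (hk : 1 ≤ k) (S : Finset Pt)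
    (f : Conf → Pt → ℝ) (g3 : Pt → ℝ) {M K Cn V3 τ : ℝ}
    (hS : ∀ ω ∈ DD T.V, ∀ x, x ∉ S → f ω x = 0)
    (hsupp : ∀ ω ∈ DD T.V, ∀ ω' ∈ atom T.V (Fk T.V k) ω, ∀ x, f ω x ≠ 0 → x ∈ Ok T k ω')
    (hK : 0 ≤ K) (hM : ∀ ω ∈ DD T.V, ∑ x ∈ S, |f ω x| ≤ M)
    (hnear : ∀ ω ∈ DD T.V, ∀ ω' ∈ atom T.V (Fk T.V k) ω, ∀ l ∈ Loops ω', level ω' l = k →
      massIn S ω' l (fun x => |f ω x|) ≤ Cn * massIn S ω' l g3)
    (hg3 : ∀ x, x ∉ S → g3 x = 0)
    (hV3 : Ex T.V (fun ω => (hf ω g3) ^ 2) ≤ V3) (hτ : Ex T.V (tauN S K) ≤ τ) :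
    Ex T.V (fun ω => cEx T.V (Fk T.V k) (fun ω' => (hkf k ω' (f ω)) ^ 2) ω) ≤
      K * (Cn ^ 2 * V3) + τ * M ^ 2 := by
  classical
  rw [Ex_congr (g' := fun ω => cEx T.V (Fk T.V k)
    (fun ω' => ∑ x ∈ S, ∑ y ∈ S, f ω x * f ω y * (Nk k ω' x y : ℝ)) ω)
    (fun ω hω => cond_sq hcov T k S hω (f ω) (hS ω hω))]
  calc Ex T.V (fun ω => cEx T.V (Fk T.V k)
        (fun ω' => ∑ x ∈ S, ∑ y ∈ S, f ω x * f ω y * (Nk k ω' x y : ℝ)) ω)
      ≤ Ex T.V (fun ω => K * (Cn ^ 2 * ∑ x ∈ S, ∑ y ∈ S, g3 x * g3 y * (Nk 0 ω x y : ℝ)) +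
          M ^ 2 * tauN S K ω) := by
        refine Ex_cEx_le (hexp T k) (fun ω hω ω' hω' => ?_)
        have hω1 : ω' ∈ DD T.V := (atom_facts (hexp T k) hω hω').1
        refine (near_pointwise hfin hsame hk hω1 S (f ω) (hsupp ω hω ω' hω') hK
          (hM ω hω)).trans ?_
        have h1 : ∑ l ∈ lev (hfin T.V ω' hω1) k, (massIn S ω' l (fun x => |f ω x|)) ^ 2 ≤
            Cn ^ 2 * ∑ x ∈ S, ∑ y ∈ S, g3 x * g3 y * (Nk 0 ω' x y : ℝ) := by
          rw [sum_Nk_eq (hfin T.V ω' hω1), Finset.mul_sum]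
          calc ∑ l ∈ lev (hfin T.V ω' hω1) k, (massIn S ω' l (fun x => |f ω x|)) ^ 2
              ≤ ∑ l ∈ lev (hfin T.V ω' hω1) k, Cn ^ 2 * (massIn S ω' l g3) ^ 2 := by
                refine Finset.sum_le_sum (fun l hl => ?_)
                rw [mem_lev] at hl
                rw [← mul_pow]
                refine pow_le_pow_left₀ ?_ (hnear ω hω ω' hω' l hl.1 hl.2) 2
                unfold massIn
                refine Finset.sum_nonneg (fun x _ => ?_)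
                split_ifs <;> positivity
            _ ≤ _ := by
                refine Finset.sum_le_sum_of_subset_of_nonneg (fun l hl => ?_)
                  (fun l _ _ => by positivity)
                rw [mem_lev] at hl
                rw [Finset.mem_filter, Set.Finite.mem_toFinset]
                exact ⟨hl.1, by omega⟩
        have h2 := mul_le_mul_of_nonneg_left h1 hK
        linarith
    _ = K * (Cn ^ 2 * Ex T.V (fun ω => (hf ω g3) ^ 2)) + M ^ 2 * Ex T.V (tauN S K) := by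
        rw [Ex_add, Ex_mul, Ex_mul, Ex_mul, loops_sq hexp hcov hfin T S g3 hg3]
    _ ≤ _ := by
        have h1 : K * (Cn ^ 2 * Ex T.V (fun ω => (hf ω g3) ^ 2)) ≤ K * (Cn ^ 2 * V3) := by
          gcongr
        have h2 : M ^ 2 * Ex T.V (tauN S K) ≤ M ^ 2 * τ := by
          gcongr
        linarith

/-- far part in expectation -/
theorem far_expect (hexp : L_expl) (hcov : L_cov) (hst : L_step) (hin : L_in) (hfin : L_finite)
    (hsame : L_same) {T : Temp} {R k : ℕ} (hR : Fits T R) (hk : 1 ≤ k) (S : Finset Pt)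
    (f : Conf → Pt → ℝ) {s ρ0 ρ3 : ℕ} {M K B m0 pE τ : ℝ}
    (hS : ∀ ω ∈ DD T.V, ∀ x, x ∉ S → f ω x = 0)
    (hsupp : ∀ ω ∈ DD T.V, ∀ ω' ∈ atom T.V (Fk T.V k) ω, ∀ x, f ω x ≠ 0 →
      x ∈ Ok T k ω' ∧ dF (Ok T k ω') x ≤ s)
    (hfar : ∀ ω ∈ DD T.V, ∀ x, f ω x ≠ 0 → ρ3 < dF T.faceSet x) (hK : 0 ≤ K)
    (hM : ∀ ω ∈ DD T.V, ∑ x ∈ S, |f ω x| ≤ M) (hB : ∀ ω ∈ DD T.V, ∀ x, |f ω x| ≤ B)
    (hm0 : ∀ ω ∈ DD T.V, ∀ x, ∑ y ∈ box x ρ0, |f ω y| ≤ m0) (hM00 : 0 ≤ M) (hm00 : 0 ≤ m0)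
    (hp0 : 0 ≤ pE)
    (hpE : ∀ x y, ρ0 < dn x y → ρ3 < dF T.faceSet x → ρ3 < dF T.faceSet y →
      Pr T.V (fun ω => PairEv ω x y (s + 1)) ≤ pE)
    (hτ : Ex T.V (tauN S K) ≤ τ) :
    Ex T.V (fun ω => cEx T.V (Fk T.V k) (fun ω' => (hkf k ω' (f ω)) ^ 2) ω) ≤
      K * (M * m0) + K * (B ^ 2 * ((S.card : ℝ) ^ 2 * pE)) + τ * M ^ 2 := by
  classical
  rw [Ex_congr (g' := fun ω => cEx T.V (Fk T.V k)
    (fun ω' => ∑ x ∈ S, ∑ y ∈ S, f ω x * f ω y * (Nk k ω' x y : ℝ)) ω)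
    (fun ω hω => cond_sq hcov T k S hω (f ω) (hS ω hω))]
  calc Ex T.V (fun ω => cEx T.V (Fk T.V k)
        (fun ω' => ∑ x ∈ S, ∑ y ∈ S, f ω x * f ω y * (Nk k ω' x y : ℝ)) ω)
      ≤ Ex T.V (fun ω => K * (M * m0) + (K * B ^ 2 * farCount T S ρ0 ρ3 (s + 1) ω +
          M ^ 2 * tauN S K ω)) := by
        refine Ex_cEx_le (hexp T k) (fun ω hω ω' hω' => ?_)
        have hω1 : ω' ∈ DD T.V := (atom_facts (hexp T k) hω hω').1
        refine (far_pointwise hst hin hfin hsame hR hk hω1 S (f ω) (hsupp ω hω ω' hω')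
          (hfar ω hω) hK (hM ω hω) (hB ω hω) (hm0 ω hω)).trans (le_of_eq ?_)
        ring
    _ ≤ K * (M * m0) + (K * B ^ 2 * Ex T.V (farCount T S ρ0 ρ3 (s + 1)) +
          M ^ 2 * Ex T.V (tauN S K)) := by
        rw [Ex_add, Ex_add, Ex_mul (K * B ^ 2) (farCount T S ρ0 ρ3 (s + 1)),
          Ex_mul (M ^ 2) (tauN S K)]
        gcongr
        exact Ex_const_le (by positivity) (fun _ _ => le_refl _)
    _ ≤ _ := by
        have h1 : K * B ^ 2 * Ex T.V (farCount T S ρ0 ρ3 (s + 1)) ≤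
            K * B ^ 2 * ((S.card : ℝ) ^ 2 * pE) := by
          have := farCount_le S hp0 hpE
          gcongr
        have h2 : M ^ 2 * Ex T.V (tauN S K) ≤ M ^ 2 * τ := by
          gcongr
        linarith

theorem fnear_ne {T : Temp} {ρ3 : ℕ} {f : Pt → ℝ} {x : Pt} (h : fnear T ρ3 f x ≠ 0) :
    f x ≠ 0 ∧ dF T.faceSet x ≤ ρ3 := by
  unfold fnear at h
  split_ifs at h with h1
  · exact ⟨h, h1⟩
  · exact absurd rfl h

theorem ffar_ne {T : Temp} {ρ3 : ℕ} {f : Pt → ℝ} {x : Pt} (h : ffar T ρ3 f x ≠ 0) :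
    f x ≠ 0 ∧ ρ3 < dF T.faceSet x := by
  unfold ffar at h
  split_ifs at h with h1
  · exact absurd rfl h
  · exact ⟨h, by omega⟩

/-- **The layer lemma** with explicit error terms. -/
theorem layer_abs (hexp : L_expl) (hcov : L_cov) (hhk : L_hk) (hst : L_step) (hin : L_in)
    (hfin : L_finite) (hsame : L_same) {T : Temp} {R k : ℕ} (hR : Fits T R) (hk : 1 ≤ k)
    (f : Conf → Pt → ℝ) (g3 : Pt → ℝ) {s ρ0 ρ3 : ℕ} {M K B m0 Cn V3 pE τ : ℝ}
    (hsupp : ∀ ω ∈ DD T.V, ∀ x, f ω x ≠ 0 → x ∈ Ok T k ω ∧ dF (Ok T k ω) x ≤ s)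
    (hK : 0 ≤ K) (hM : ∀ ω ∈ DD T.V, ∑ x ∈ box (0, 0) R, |f ω x| ≤ M)
    (hB : ∀ ω ∈ DD T.V, ∀ x, |f ω x| ≤ B)
    (hm0 : ∀ ω ∈ DD T.V, ∀ x, ∑ y ∈ box x ρ0, |f ω y| ≤ m0) (hM00 : 0 ≤ M) (hm00 : 0 ≤ m0)
    (hnear : ∀ ω ∈ DD T.V, ∀ ω' ∈ atom T.V (Fk T.V k) ω, ∀ l ∈ Loops ω', level ω' l = k →
      massIn (box (0, 0) R) ω' l (fun x => |fnear T ρ3 (f ω) x|) ≤
        Cn * massIn (box (0, 0) R) ω' l g3)
    (hg3 : ∀ x, x ∉ box (0, 0) R → g3 x = 0)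
    (hV3 : Ex T.V (fun ω => (hf ω g3) ^ 2) ≤ V3) (hp0 : 0 ≤ pE)
    (hpE : ∀ x y, ρ0 < dn x y → ρ3 < dF T.faceSet x → ρ3 < dF T.faceSet y →
      Pr T.V (fun ω => PairEv ω x y (s + 1)) ≤ pE)
    (hτ : Ex T.V (tauN (box (0, 0) R) K) ≤ τ) :
    Ex T.V (fun ω => cEx T.V (Fk T.V k) (fun ω' => (hkf k ω' (f ω)) ^ 2) ω) ≤
      2 * (K * (Cn ^ 2 * V3) + τ * M ^ 2) +
      2 * (K * (M * m0) + K * (B ^ 2 * (((box (0, 0) R).card : ℝ) ^ 2 * pE)) + τ * M ^ 2) := by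
  classical
  have hS : ∀ ω ∈ DD T.V, ∀ x, x ∉ box (0, 0) R → f ω x = 0 := by
    intro ω hω x hx
    by_contra h
    exact hx (hR (hsupp ω hω x h).1.1)
  have hOk : ∀ ω ∈ DD T.V, ∀ ω' ∈ atom T.V (Fk T.V k) ω, Ok T k ω' = Ok T k ω := by
    intro ω hω ω' hω'
    have h1 := hω'
    unfold atom at h1
    rw [Finset.mem_filter] at h1
    exact (hhk T k ω hω ω' h1.1 h1.2).1
  have h1 := near_expect hexp hcov hfin hsame hk (box (0, 0) R)
    (fun ω => fnear T ρ3 (f ω)) g3 (M := M) (K := K) (Cn := Cn) (V3 := V3) (τ := τ)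
    (fun ω hω x hx => by
      by_contra h
      exact (fnear_ne h).1 (hS ω hω x hx))
    (fun ω hω ω' hω' x h => by
      rw [hOk ω hω ω' hω']
      exact (hsupp ω hω x (fnear_ne h).1).1) hK
    (fun ω hω => (Finset.sum_le_sum (fun x _ => abs_fnear_le T ρ3 (f ω) x)).trans (hM ω hω))
    hnear hg3 hV3 hτ
  have h2 := far_expect hexp hcov hst hin hfin hsame hR hk (box (0, 0) R)
    (fun ω => ffar T ρ3 (f ω)) (s := s) (ρ0 := ρ0) (ρ3 := ρ3) (M := M) (K := K) (B := B)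
    (m0 := m0) (pE := pE) (τ := τ)
    (fun ω hω x hx => by
      by_contra h
      exact (ffar_ne h).1 (hS ω hω x hx))
    (fun ω hω ω' hω' x h => by
      rw [hOk ω hω ω' hω']
      exact hsupp ω hω x (ffar_ne h).1) (fun ω _ x h => (ffar_ne h).2) hK
    (fun ω hω => (Finset.sum_le_sum (fun x _ => abs_ffar_le T ρ3 (f ω) x)).trans (hM ω hω))
    (fun ω hω x => (abs_ffar_le T ρ3 (f ω) x).trans (hB ω hω x))
    (fun ω hω x => (Finset.sum_le_sum (fun y _ => abs_ffar_le T ρ3 (f ω) y)).trans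
      (hm0 ω hω x)) hM00 hm00 hp0 hpE hτ
  calc Ex T.V (fun ω => cEx T.V (Fk T.V k) (fun ω' => (hkf k ω' (f ω)) ^ 2) ω)
      ≤ Ex T.V (fun ω =>
          2 * cEx T.V (Fk T.V k) (fun ω' => (hkf k ω' (fnear T ρ3 (f ω))) ^ 2) ω +
          2 * cEx T.V (Fk T.V k) (fun ω' => (hkf k ω' (ffar T ρ3 (f ω))) ^ 2) ω) := by
        refine Ex_mono (fun ω hω => ?_)
        rw [← cEx_mul, ← cEx_mul]
        unfold cEx
        simp only [smul_eq_mul]
        rw [← mul_add, ← Finset.sum_add_distrib]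
        refine mul_le_mul_of_nonneg_left (Finset.sum_le_sum (fun ω' _ => ?_)) (by positivity)
        have e : hkf k ω' (f ω) = hkf k ω' (fnear T ρ3 (f ω)) + hkf k ω' (ffar T ρ3 (f ω)) := by
          rw [hkf_eq_sum (hS ω hω), hkf_eq_sum (S := box (0, 0) R) (f := fnear T ρ3 (f ω))
            (fun x hx => by
              by_contra h
              exact (fnear_ne h).1 (hS ω hω x hx)),
            hkf_eq_sum (S := box (0, 0) R) (f := ffar T ρ3 (f ω))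
            (fun x hx => by
              by_contra h
              exact (ffar_ne h).1 (hS ω hω x hx)), ← Finset.sum_add_distrib]
          refine Finset.sum_congr rfl (fun x _ => ?_)
          rw [← add_mul, fnear_add_ffar]
        rw [e]
        nlinarith [sq_nonneg (hkf k ω' (fnear T ρ3 (f ω)) - hkf k ω' (ffar T ρ3 (f ω)))]
    _ = 2 * Ex T.V (fun ω => cEx T.V (Fk T.V k)
            (fun ω' => (hkf k ω' (fnear T ρ3 (f ω))) ^ 2) ω) +
          2 * Ex T.V (fun ω => cEx T.V (Fk T.V k)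
            (fun ω' => (hkf k ω' (ffar T ρ3 (f ω))) ^ 2) ω) := by
        rw [Ex_add, Ex_mul, Ex_mul]
    _ ≤ _ := by linarith

end Vale.Agent.P155.H12
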