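import Vale.Agent.P155.H12.Core

/-!
# P155, block H: the layer lemma, final form
-/

namespace Vale.Agent.P155.H12

open Finset Vale.Agent.P155 Vale.Agent.P155.Skel Vale.Agent.P155.G45 Vale.Agent.P155.J

/-- the conclusion of `J.H_final` at given parameters -/
def HConcl (a : ℝ) (k : ℕ) (C0 c C : ℝ) (R : ℕ) (T : Temp) (φ : Pt → ℝ) : Prop :=
  1 ≤ R → Fits T R → IsBump (0, 0) R (C0 / (R : ℝ) ^ 2) φ →
  (∀ y, φ y ≠ 0 → (R : ℝ) ≤ C0 * dF T.faceSet y) → ∀ u χ : Conf → Pt → ℝ,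
  (∀ ω ∈ DD T.V, IsGreen (Ok T k ω) φ (u ω)) →
  (∀ ω ∈ DD T.V, IsCut (Ok T k ω) ⌈(R : ℝ) ^ a⌉₊ C0 (χ ω)) →
  Ex T.V (fun ω => cEx T.V (Fk T.V k)
    (fun ω' => (hkf k ω' (fL (Ok T k ω) φ (χ ω) (u ω))) ^ 2) ω) ≤ C * (R : ℝ) ^ (-c)

theorem bump_le {R : ℕ} {C0 : ℝ} {φ : Pt → ℝ} (h : IsBump (0, 0) R (C0 / (R : ℝ) ^ 2) φ)
    (y : Pt) : |φ y| ≤ C0 / (R : ℝ) ^ 2 := by
  have := h.2 0 0 (by norm_num) y
  simpa using this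

theorem card_box_le {R : ℕ} (hR : 1 ≤ R) : ((box (0, 0) R).card : ℝ) ≤ 9 * (R : ℝ) ^ 2 := by
  have hR1 : (1 : ℝ) ≤ R := by exact_mod_cast hR
  rw [card_box]
  push_cast
  nlinarith

theorem Ex_zero (V : Finset Pt) : Ex V (fun _ => (0 : ℝ)) = 0 := by
  simp [Ex]

theorem Pr_le_one (V : Finset Pt) (p : Conf → Prop) : Pr V p ≤ 1 := by
  classical
  rw [Pr_def]
  refine Ex_const_le zero_le_one (fun ω _ => ?_)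
  split_ifs <;> norm_num

/-- Crude bound at small scales. -/
theorem crude {T : Temp} {R k : ℕ} (hfit : Fits T R) (hR : 1 ≤ R) (hk : 1 ≤ k)
    {C0 M γ K τ : ℝ} (hγ : 0 < γ) (hM0 : 0 ≤ M)
    (hmass : ∀ (O : Set Pt) (s : ℕ) (χ φ u : Pt → ℝ),
      O ⊆ (box (0, 0) R : Set Pt) → CPr O → 1 ≤ s → IsCut O s C0 χ → IsGreen O φ u →
      (∀ y, |φ y| ≤ C0 / (R : ℝ) ^ 2) →
      ∑ x ∈ box (0, 0) R, |fL O φ χ u x| ≤ M ∧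
      (∀ (p : Pt) (ρ : ℕ), s ≤ ρ → ρ ≤ R →
        ∑ x ∈ box p ρ, |fL O φ χ u x| ≤ M * ((ρ : ℝ) / R) ^ γ))
    (φ : Pt → ℝ) (hφ : ∀ y, |φ y| ≤ C0 / (R : ℝ) ^ 2)
    (u χ : Conf → Pt → ℝ) {s : ℕ} (hs : 1 ≤ s) (hsR : s ≤ R)
    (hu : ∀ ω ∈ DD T.V, IsGreen (Ok T k ω) φ (u ω))
    (hχ : ∀ ω ∈ DD T.V, IsCut (Ok T k ω) s C0 (χ ω))
    (hK : 0 ≤ K) (hKR : K ≤ R) (hτ : Ex T.V (tauN (box (0, 0) R) K) ≤ τ) :
    Ex T.V (fun ω => cEx T.V (Fk T.V k)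
      (fun ω' => (hkf k ω' (fL (Ok T k ω) φ (χ ω) (u ω))) ^ 2) ω) ≤
      (4 * τ * M ^ 2 + 164 * M ^ 2) * (R : ℝ) ^ 5 := by
  classical
  have hR1 : (1 : ℝ) ≤ R := by exact_mod_cast hR
  have hτ0 : 0 ≤ τ := tau_bound_nonneg hτ
  have hD : T.faceSet.Finite := (box (0, 0) R).finite_toSet.subset hfit
  have h := core hfit hk (C0 := C0) (M := M) (γ := γ) (K0 := 0) (K := K) (V3 := 0) (pE := 1)
    (τ := τ) hM0 hmass φ hφ u χ (s := s) (ρ := s) hs le_rfl hsR hu hχ hK (ρ3 := 0)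
    (g := fun _ => 0)
    (fun ω hω ω' hω' l hl hlev => by
      rw [zero_mul]
      apply le_of_eq
      unfold massIn
      refine Finset.sum_eq_zero (fun x _ => ?_)
      have h0 : fnear T 0 (fL (Ok T k ω) φ (χ ω) (u ω)) x = 0 := by
        by_contra hne
        obtain ⟨h1, h2⟩ := fnear_ne hne
        have h3 := (fL_supp (exists_not_mem_Ok hfit k ω) hs (hχ ω hω) (hu ω hω) h1).1
        have h4 := dF_pos (exists_notMem hD) (Ok_sub T k ω h3)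
        omega
      beta_reduce
      rw [h0, abs_zero]
      split_ifs <;> rfl)
    (fun _ _ => rfl)
    (by
      have : (fun ω : Conf => (hf ω (fun _ => (0 : ℝ))) ^ 2) = fun _ => 0 := by
        funext ω
        simp [hf]
      rw [this, Ex_zero])
    zero_le_one (fun _ _ _ _ _ => Pr_le_one _ _) hτ
  refine h.trans ?_
  have hq : ((s : ℝ) / R) ^ γ ≤ 1 := by
    apply Real.rpow_le_one (by positivity) _ hγ.le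
    rw [div_le_one (by linarith)]
    exact_mod_cast hsR
  have hq0 : 0 ≤ ((s : ℝ) / R) ^ γ := by positivity
  have hcard := card_box_le hR
  have hc0 : (0 : ℝ) ≤ ((box (0, 0) R).card : ℝ) := by positivity
  have e1 : M * (M * ((s : ℝ) / R) ^ γ) ≤ M ^ 2 := by
    calc M * (M * ((s : ℝ) / R) ^ γ) ≤ M * (M * 1) := by gcongr
      _ = M ^ 2 := by ring
  have e2 : (M * ((s : ℝ) / R) ^ γ) ^ 2 ≤ M ^ 2 := by
    apply pow_le_pow_left₀ (by positivity)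
    calc M * ((s : ℝ) / R) ^ γ ≤ M * 1 := by gcongr
      _ = M := mul_one M
  have e3 : ((box (0, 0) R).card : ℝ) ^ 2 ≤ 81 * (R : ℝ) ^ 4 := by
    calc ((box (0, 0) R).card : ℝ) ^ 2 ≤ (9 * (R : ℝ) ^ 2) ^ 2 := by gcongr
      _ = 81 * (R : ℝ) ^ 4 := by ring
  have hR5 : (1 : ℝ) ≤ (R : ℝ) ^ 5 := one_le_pow₀ hR1
  have hRR5 : (R : ℝ) ≤ (R : ℝ) ^ 5 := le_self_pow₀ hR1 (by norm_num)
  calc 2 * (K * ((0 : ℝ) ^ 2 * 0) + τ * M ^ 2) +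
        2 * (K * (M * (M * ((s : ℝ) / R) ^ γ)) + K * ((M * ((s : ℝ) / R) ^ γ) ^ 2 *
          (((box (0, 0) R).card : ℝ) ^ 2 * 1)) + τ * M ^ 2)
      ≤ 2 * (K * ((0 : ℝ) ^ 2 * 0) + τ * M ^ 2) +
        2 * (R * M ^ 2 + R * (M ^ 2 * (81 * (R : ℝ) ^ 4 * 1)) + τ * M ^ 2) := by gcongr
    _ = 4 * τ * M ^ 2 * 1 + (2 * M ^ 2 * R + 162 * M ^ 2 * (R : ℝ) ^ 5) := by ring
    _ ≤ 4 * τ * M ^ 2 * (R : ℝ) ^ 5 + (2 * M ^ 2 * (R : ℝ) ^ 5 + 162 * M ^ 2 * (R : ℝ) ^ 5) := by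
        gcongr
    _ = _ := by ring

/-- The far-pair term. -/
theorem far_num {R : ℕ} (hR : 1 ≤ R) {a e γ CF c M : ℝ} (hγ : 0 < γ) (hγ1 : γ ≤ 1)
    (hCF : 1 ≤ CF) (hM : 0 ≤ M) (ha : 0 ≤ a)
    (hexp : c + 2 * ((a - 1) * γ) + 4 + a * CF - 4 * (1 - e) ≤ -c) :
    (R : ℝ) ^ c * ((M * ((⌈(R : ℝ) ^ a⌉₊ : ℝ) / R) ^ γ) ^ 2 * (((box (0, 0) R).card : ℝ) ^ 2 *
      (CF * (2 * (⌈(R : ℝ) ^ a⌉₊ : ℝ) + 1) ^ CF /
        ((⌊(R : ℝ) ^ (1 - e)⌋₊ : ℝ) + 1) ^ 4))) ≤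
      324 * M ^ 2 * CF * 5 ^ CF * (R : ℝ) ^ (-c) := by
  have hR1 : (1 : ℝ) ≤ R := by exact_mod_cast hR
  have hR0 : (0 : ℝ) < R := by linarith
  have hRa : 1 ≤ (R : ℝ) ^ a := Real.one_le_rpow hR1 ha
  have hs : (⌈(R : ℝ) ^ a⌉₊ : ℝ) ≤ 2 * (R : ℝ) ^ a := by
    have h5 := (Nat.ceil_lt_add_one (show (0 : ℝ) ≤ (R : ℝ) ^ a by positivity)).le
    linarith
  have hs5 : 2 * (⌈(R : ℝ) ^ a⌉₊ : ℝ) + 1 ≤ 5 * (R : ℝ) ^ a := by linarith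
  have b1 : (M * ((⌈(R : ℝ) ^ a⌉₊ : ℝ) / R) ^ γ) ^ 2 ≤ 4 * M ^ 2 * (R : ℝ) ^ (2 * ((a - 1) * γ)) := by
    have h1 : ((⌈(R : ℝ) ^ a⌉₊ : ℝ) / R) ^ γ ≤ 2 * (R : ℝ) ^ ((a - 1) * γ) := by
      calc ((⌈(R : ℝ) ^ a⌉₊ : ℝ) / R) ^ γ ≤ (2 * (R : ℝ) ^ (a - 1)) ^ γ := by
            apply Real.rpow_le_rpow (by positivity) _ hγ.le
            rw [div_le_iff₀ hR0, mul_assoc, Real.rpow_sub_one hR0.ne', div_mul_cancel₀ _ hR0.ne']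
            exact hs
        _ = 2 ^ γ * (R : ℝ) ^ ((a - 1) * γ) := by
            rw [Real.mul_rpow (by norm_num) (by positivity), ← Real.rpow_mul hR0.le]
        _ ≤ 2 * (R : ℝ) ^ ((a - 1) * γ) := by
            gcongr
            calc (2 : ℝ) ^ γ ≤ 2 ^ (1 : ℝ) :=
                  Real.rpow_le_rpow_of_exponent_le (by norm_num) hγ1
              _ = 2 := Real.rpow_one 2
    calc (M * ((⌈(R : ℝ) ^ a⌉₊ : ℝ) / R) ^ γ) ^ 2 ≤ (M * (2 * (R : ℝ) ^ ((a - 1) * γ))) ^ 2 := by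
          gcongr
      _ = 4 * M ^ 2 * ((R : ℝ) ^ ((a - 1) * γ) * (R : ℝ) ^ ((a - 1) * γ)) := by ring
      _ = _ := by
          rw [← Real.rpow_add hR0]
          congr 2
          ring
  have b2 : ((box (0, 0) R).card : ℝ) ^ 2 ≤ 81 * (R : ℝ) ^ (4 : ℝ) := by
    have hcard := card_box_le hR
    calc ((box (0, 0) R).card : ℝ) ^ 2 ≤ (9 * (R : ℝ) ^ 2) ^ 2 := by gcongr
      _ = 81 * (R : ℝ) ^ 4 := by ring
      _ = _ := by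
          rw [← Real.rpow_natCast]
          norm_num
  have b3 : CF * (2 * (⌈(R : ℝ) ^ a⌉₊ : ℝ) + 1) ^ CF /
        ((⌊(R : ℝ) ^ (1 - e)⌋₊ : ℝ) + 1) ^ 4 ≤
      CF * 5 ^ CF * (R : ℝ) ^ (a * CF - 4 * (1 - e)) := by
    have h1 : (2 * (⌈(R : ℝ) ^ a⌉₊ : ℝ) + 1) ^ CF ≤ 5 ^ CF * (R : ℝ) ^ (a * CF) := by
      calc (2 * (⌈(R : ℝ) ^ a⌉₊ : ℝ) + 1) ^ CF ≤ (5 * (R : ℝ) ^ a) ^ CF :=
            Real.rpow_le_rpow (by positivity) hs5 (by linarith)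
        _ = _ := by rw [Real.mul_rpow (by norm_num) (by positivity), ← Real.rpow_mul hR0.le]
    have h2 : (R : ℝ) ^ (4 * (1 - e)) ≤ ((⌊(R : ℝ) ^ (1 - e)⌋₊ : ℝ) + 1) ^ 4 := by
      have h3 : (R : ℝ) ^ (1 - e) ≤ (⌊(R : ℝ) ^ (1 - e)⌋₊ : ℝ) + 1 :=
        (Nat.lt_floor_add_one _).le
      calc (R : ℝ) ^ (4 * (1 - e)) = ((R : ℝ) ^ (1 - e)) ^ 4 := by
            rw [← Real.rpow_natCast, ← Real.rpow_mul hR0.le]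
            congr 1
            push_cast
            ring
        _ ≤ _ := by gcongr
    have h4 : 0 < (R : ℝ) ^ (4 * (1 - e)) := by positivity
    calc CF * (2 * (⌈(R : ℝ) ^ a⌉₊ : ℝ) + 1) ^ CF / ((⌊(R : ℝ) ^ (1 - e)⌋₊ : ℝ) + 1) ^ 4
        ≤ CF * (5 ^ CF * (R : ℝ) ^ (a * CF)) / (R : ℝ) ^ (4 * (1 - e)) := by gcongr
      _ = _ := by
          rw [Real.rpow_sub hR0]
          ring
  calc (R : ℝ) ^ c * ((M * ((⌈(R : ℝ) ^ a⌉₊ : ℝ) / R) ^ γ) ^ 2 * (((box (0, 0) R).card : ℝ) ^ 2 *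
        (CF * (2 * (⌈(R : ℝ) ^ a⌉₊ : ℝ) + 1) ^ CF / ((⌊(R : ℝ) ^ (1 - e)⌋₊ : ℝ) + 1) ^ 4)))
      ≤ (R : ℝ) ^ c * ((4 * M ^ 2 * (R : ℝ) ^ (2 * ((a - 1) * γ))) *
        ((81 * (R : ℝ) ^ (4 : ℝ)) * (CF * 5 ^ CF * (R : ℝ) ^ (a * CF - 4 * (1 - e))))) := by
        gcongr
    _ = 324 * M ^ 2 * CF * 5 ^ CF * ((R : ℝ) ^ c * (R : ℝ) ^ (2 * ((a - 1) * γ)) *
          (R : ℝ) ^ (4 : ℝ) * (R : ℝ) ^ (a * CF - 4 * (1 - e))) := by ring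
    _ = 324 * M ^ 2 * CF * 5 ^ CF * (R : ℝ) ^
          (c + 2 * ((a - 1) * γ) + 4 + (a * CF - 4 * (1 - e))) := by
        rw [← Real.rpow_add hR0, ← Real.rpow_add hR0, ← Real.rpow_add hR0]
    _ ≤ _ := by
        apply mul_le_mul_of_nonneg_left _ (by positivity)
        apply Real.rpow_le_rpow_of_exponent_le hR1
        linarith

end Vale.Agent.P155.H12
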